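import Vale.Agent.P121.Defs

/-!
The abstract part: a dual certificate whose contact set consists of two sheets over a common
set `A` gives a marginal without an optimal Monge plan.
-/

namespace Vale.Agent.P121

open MeasureTheory Set
open scoped ENNReal

theorem coulomb_swap12 (x y z : R3) : coulomb y x z = coulomb x y z := by
  simp only [coulomb, edist_comm y x]
  abel

theorem coulomb_swap23 (x y z : R3) : coulomb x z y = coulomb x y z := by
  simp only [coulomb, edist_comm z y]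
  abel

theorem measurable_coulomb :
    Measurable (fun p : R3 × R3 × R3 => coulomb p.1 p.2.1 p.2.2) := by
  unfold coulomb
  fun_prop

/-- The six orders of the triple `(a, b, c)`. -/
def IsPerm3 (a b c x y z : R3) : Prop :=
  (x = a ∧ y = b ∧ z = c) ∨ (x = a ∧ y = c ∧ z = b) ∨ (x = b ∧ y = a ∧ z = c) ∨
  (x = b ∧ y = c ∧ z = a) ∨ (x = c ∧ y = a ∧ z = b) ∨ (x = c ∧ y = b ∧ z = a)

/-- The data of the abstract construction. -/
structure Sheets where
  A : Set R3
  T : Bool → R3 → R3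
  S : Bool → R3 → R3
  u : R3 → ℝ≥0∞
  bound : ℝ≥0∞
  measA : MeasurableSet A
  volA_ne_zero : volume A ≠ 0
  volA_ne_top : volume A ≠ ⊤
  measT : ∀ i, Measurable (T i)
  measS : ∀ i, Measurable (S i)
  contT : ∀ i, ContinuousOn (T i) A
  contS : ∀ i, ContinuousOn (S i) A
  injT : ∀ i, InjOn (T i) A
  injS : ∀ i, InjOn (S i) A
  acT : ∀ i, (volume.restrict A).map (T i) ≪ volume
  acS : ∀ i, (volume.restrict A).map (S i) ≪ volume
  T_notA : ∀ i, ∀ a ∈ A, T i a ∉ A
  S_notA : ∀ i, ∀ a ∈ A, S i a ∉ A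
  T_ne_T : ∀ i j, ∀ a ∈ A, ∀ a' ∈ A, T i a = T j a' → i = j
  S_ne_S : ∀ i j, ∀ a ∈ A, ∀ a' ∈ A, S i a = S j a' → i = j
  T_ne_S : ∀ i j, ∀ a ∈ A, ∀ a' ∈ A, T i a ≠ S j a'
  measu : Measurable u
  bound_ne_top : bound ≠ ⊤
  sheet_eq : ∀ i, ∀ a ∈ A, coulomb a (T i a) (S i a) = u a + u (T i a) + u (S i a)
  u_le : ∀ x ∈ A ∪ (⋃ i, T i '' A ∪ S i '' A), u x ≤ bound
  cert : ∀ x ∈ A ∪ (⋃ i, T i '' A ∪ S i '' A), ∀ y ∈ A ∪ (⋃ i, T i '' A ∪ S i '' A),
    ∀ z ∈ A ∪ (⋃ i, T i '' A ∪ S i '' A),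
    u x + u y + u z ≤ coulomb x y z ∧
      (u x + u y + u z = coulomb x y z → ∃ i, ∃ a ∈ A, IsPerm3 a (T i a) (S i a) x y z)

namespace Sheets

variable (D : Sheets)

/-- The support set. -/
def supp : Set R3 := D.A ∪ (⋃ i, D.T i '' D.A ∪ D.S i '' D.A)

/-- Lebesgue measure on `A`. -/
noncomputable def base : Measure R3 := volume.restrict D.A

/-- The normalising factor. -/
noncomputable def kap : ℝ≥0∞ := (3 * volume D.A)⁻¹

/-- The marginal. -/
noncomputable def mu : Measure R3 :=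
  D.kap • (D.base + (2 : ℝ≥0∞)⁻¹ •
    ((D.base.map (D.T true) + D.base.map (D.S true))
      + (D.base.map (D.T false) + D.base.map (D.S false))))

theorem base_univ : D.base univ = volume D.A := by
  simp [base]

theorem kap_ne_top : D.kap ≠ ⊤ := by
  simp [kap, D.volA_ne_zero]

theorem kap_ne_zero : D.kap ≠ 0 := by
  simp [kap, ENNReal.mul_eq_top, D.volA_ne_top]

theorem isProbabilityMeasure : IsProbabilityMeasure D.mu := by
  constructor
  have h3 : (3 : ℝ≥0∞) * volume D.A ≠ 0 := by simp [D.volA_ne_zero]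
  have h3' : (3 : ℝ≥0∞) * volume D.A ≠ ⊤ := ENNReal.mul_ne_top (by simp) D.volA_ne_top
  have hsum : volume D.A + (2 : ℝ≥0∞)⁻¹ *
      ((volume D.A + volume D.A) + (volume D.A + volume D.A)) = 3 * volume D.A := by
    have h22 : (2 : ℝ≥0∞)⁻¹ * 2 = 1 := ENNReal.inv_mul_cancel (by simp) (by simp)
    calc volume D.A + (2 : ℝ≥0∞)⁻¹ * ((volume D.A + volume D.A) + (volume D.A + volume D.A))
        = volume D.A + ((2 : ℝ≥0∞)⁻¹ * 2) * (2 * volume D.A) := by ring
      _ = 3 * volume D.A := by rw [h22]; ring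
  simp only [mu, Measure.smul_apply, Measure.add_apply, smul_eq_mul,
    Measure.map_apply (D.measT _) MeasurableSet.univ,
    Measure.map_apply (D.measS _) MeasurableSet.univ, preimage_univ, base_univ, hsum]
  exact ENNReal.inv_mul_cancel h3 h3'

theorem mu_ac : D.mu ≪ volume := by
  refine Measure.AbsolutelyContinuous.mk fun s hs h0 => ?_
  have hb : D.base s = 0 :=
    le_antisymm (le_trans (Measure.restrict_apply_le _ _) h0.le) bot_le
  have ht : ∀ i, D.base.map (D.T i) s = 0 := fun i => D.acT i h0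
  have hS : ∀ i, D.base.map (D.S i) s = 0 := fun i => D.acS i h0
  simp [mu, hb, ht, hS]

theorem measurableSet_imT {s : Set R3} (hs : MeasurableSet s) (hsA : s ⊆ D.A) (i : Bool) :
    MeasurableSet (D.T i '' s) :=
  hs.image_of_continuousOn_injOn ((D.contT i).mono hsA) ((D.injT i).mono hsA)

theorem measurableSet_imS {s : Set R3} (hs : MeasurableSet s) (hsA : s ⊆ D.A) (i : Bool) :
    MeasurableSet (D.S i '' s) :=
  hs.image_of_continuousOn_injOn ((D.contS i).mono hsA) ((D.injS i).mono hsA)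

theorem measurableSet_supp : MeasurableSet D.supp :=
  D.measA.union (MeasurableSet.iUnion fun i =>
    (D.measurableSet_imT D.measA subset_rfl i).union (D.measurableSet_imS D.measA subset_rfl i))

theorem ae_base : ∀ᵐ a ∂D.base, a ∈ D.A := ae_restrict_mem D.measA

theorem ae_mu_iff {P : R3 → Prop} (hP : MeasurableSet {x | P x})
    (hA : ∀ a ∈ D.A, P a) (hT : ∀ i, ∀ a ∈ D.A, P (D.T i a))
    (hS : ∀ i, ∀ a ∈ D.A, P (D.S i a)) : ∀ᵐ x ∂D.mu, P x := by
  have h1 : ∀ᵐ a ∂D.base, P a := D.ae_base.mono hA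
  have h2 : ∀ i, ∀ᵐ a ∂(D.base.map (D.T i)), P a := fun i =>
    (ae_map_iff (D.measT i).aemeasurable hP).2 (D.ae_base.mono (hT i))
  have h3 : ∀ i, ∀ᵐ a ∂(D.base.map (D.S i)), P a := fun i =>
    (ae_map_iff (D.measS i).aemeasurable hP).2 (D.ae_base.mono (hS i))
  unfold mu
  apply Measure.ae_smul_measure
  rw [ae_add_measure_iff]
  refine ⟨h1, ?_⟩
  apply Measure.ae_smul_measure
  simp only [ae_add_measure_iff]
  exact ⟨⟨h2 _, h3 _⟩, h2 _, h3 _⟩

theorem ae_supp : ∀ᵐ x ∂D.mu, x ∈ D.supp :=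
  D.ae_mu_iff D.measurableSet_supp (fun _ ha => Or.inl ha)
    (fun i a ha => Or.inr (mem_iUnion.2 ⟨i, Or.inl ⟨a, ha, rfl⟩⟩))
    (fun i a ha => Or.inr (mem_iUnion.2 ⟨i, Or.inr ⟨a, ha, rfl⟩⟩))

/-- The dual value. -/
noncomputable def dual : ℝ≥0∞ := 3 * ∫⁻ x, D.u x ∂D.mu

theorem lintegral_usum {π : Measure (R3 × R3 × R3)} (h : IsCoupling D.mu π) :
    ∫⁻ p, D.u p.1 + D.u p.2.1 + D.u p.2.2 ∂π = D.dual := by
  have hu := D.measu
  have e1 : ∫⁻ p, D.u p.1 ∂π = ∫⁻ x, D.u x ∂D.mu := by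
    rw [← lintegral_map D.measu (by fun_prop : Measurable fun p : R3 × R3 × R3 => p.1), h.1]
  have e2 : ∫⁻ p, D.u p.2.1 ∂π = ∫⁻ x, D.u x ∂D.mu := by
    rw [← lintegral_map D.measu (by fun_prop : Measurable fun p : R3 × R3 × R3 => p.2.1), h.2.1]
  have e3 : ∫⁻ p, D.u p.2.2 ∂π = ∫⁻ x, D.u x ∂D.mu := by
    rw [← lintegral_map D.measu (by fun_prop : Measurable fun p : R3 × R3 × R3 => p.2.2), h.2.2]
  rw [lintegral_add_left (by fun_prop), lintegral_add_left (by fun_prop), e1, e2, e3, dual]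
  ring

theorem ae_usum_le {π : Measure (R3 × R3 × R3)} (h : IsCoupling D.mu π) :
    ∀ᵐ p ∂π, (p.1 ∈ D.supp ∧ p.2.1 ∈ D.supp ∧ p.2.2 ∈ D.supp) ∧
      D.u p.1 + D.u p.2.1 + D.u p.2.2 ≤ coulomb p.1 p.2.1 p.2.2 := by
  have hs := D.ae_supp
  have h1 : ∀ᵐ p ∂π, p.1 ∈ D.supp :=
    ae_of_ae_map (by fun_prop : AEMeasurable (fun p : R3 × R3 × R3 => p.1) π) (h.1.symm ▸ hs)
  have h2 : ∀ᵐ p ∂π, p.2.1 ∈ D.supp :=
    ae_of_ae_map (by fun_prop : AEMeasurable (fun p : R3 × R3 × R3 => p.2.1) π) (h.2.1.symm ▸ hs)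
  have h3 : ∀ᵐ p ∂π, p.2.2 ∈ D.supp :=
    ae_of_ae_map (by fun_prop : AEMeasurable (fun p : R3 × R3 × R3 => p.2.2) π) (h.2.2.symm ▸ hs)
  filter_upwards [h1, h2, h3] with p a b c
  exact ⟨⟨a, b, c⟩, (D.cert _ a _ b _ c).1⟩

theorem dual_le {π : Measure (R3 × R3 × R3)} (h : IsCoupling D.mu π) :
    D.dual ≤ ∫⁻ p, coulomb p.1 p.2.1 p.2.2 ∂π := by
  rw [← D.lintegral_usum h]
  exact lintegral_mono_ae ((D.ae_usum_le h).mono fun p hp => hp.2)

/-- The three cyclic orders of sheet `i`. -/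
noncomputable def sheetPlan (i : Bool) : Measure (R3 × R3 × R3) :=
  D.base.map (fun a => (a, D.T i a, D.S i a)) + D.base.map (fun a => (D.T i a, D.S i a, a))
    + D.base.map (fun a => (D.S i a, a, D.T i a))

/-- An optimal plan. -/
noncomputable def plan : Measure (R3 × R3 × R3) :=
  D.kap • ((2 : ℝ≥0∞)⁻¹ • (D.sheetPlan true + D.sheetPlan false))

theorem plan_coupling : IsCoupling D.mu D.plan := by
  have hT := D.measT
  have hS := D.measS
  refine ⟨?_, ?_, ?_⟩ <;>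
  · simp only [plan, sheetPlan, Measure.map_smul]
    simp (disch := fun_prop) only [Measure.map_add, Measure.map_map,
      Function.comp_def, Measure.map_id']
    rw [mu]
    congr 1
    have key : ∀ m p q p' q' : Measure R3,
        (2 : ℝ≥0∞)⁻¹ • ((m + p + q) + (m + p' + q'))
          = m + (2 : ℝ≥0∞)⁻¹ • ((p + q) + (p' + q')) := by
      intro m p q p' q'
      have : (2 : ℝ≥0∞)⁻¹ • m + (2 : ℝ≥0∞)⁻¹ • m = m := by
        rw [← add_smul, ENNReal.inv_two_add_inv_two, one_smul]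
      conv_rhs => rw [← this]
      simp only [smul_add]
      abel
    rw [← key]
    try congr 1; abel

theorem plan_cost : ∫⁻ p, coulomb p.1 p.2.1 p.2.2 ∂D.plan = D.dual := by
  rw [← D.lintegral_usum D.plan_coupling]
  apply lintegral_congr_ae
  have hm : MeasurableSet {p : R3 × R3 × R3 |
      coulomb p.1 p.2.1 p.2.2 = D.u p.1 + D.u p.2.1 + D.u p.2.2} := by
    have hu := D.measu
    exact measurableSet_eq_fun measurable_coulomb (by fun_prop)
  have h1 : ∀ i, ∀ᵐ p ∂(D.sheetPlan i),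
      coulomb p.1 p.2.1 p.2.2 = D.u p.1 + D.u p.2.1 + D.u p.2.2 := by
    intro i
    have hT := D.measT i
    have hS := D.measS i
    unfold sheetPlan
    simp only [ae_add_measure_iff]
    refine ⟨⟨?_, ?_⟩, ?_⟩ <;>
    · rw [ae_map_iff (by fun_prop) hm]
      filter_upwards [D.ae_base] with a ha
      have e := D.sheet_eq i a ha
      simp only [coulomb, edist_comm (D.T i a) a, edist_comm (D.S i a) a,
        edist_comm (D.S i a) (D.T i a)] at e ⊢
      calc _ = (edist a (D.T i a))⁻¹ + (edist a (D.S i a))⁻¹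
              + (edist (D.T i a) (D.S i a))⁻¹ := by ring
        _ = D.u a + D.u (D.T i a) + D.u (D.S i a) := e
        _ = _ := by ring
  unfold plan
  apply Measure.ae_smul_measure
  apply Measure.ae_smul_measure
  rw [ae_add_measure_iff]
  exact ⟨h1 _, h1 _⟩

theorem kantorovich_eq : kantorovich D.mu = D.dual := by
  refine le_antisymm ?_ (le_iInf₂ fun π h => D.dual_le h)
  exact le_of_le_of_eq (iInf₂_le D.plan D.plan_coupling) D.plan_cost

theorem dual_lt_top : D.dual < ⊤ := by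
  have := D.isProbabilityMeasure
  have h : ∫⁻ x, D.u x ∂D.mu ≤ ∫⁻ _, D.bound ∂D.mu :=
    lintegral_mono_ae (D.ae_supp.mono fun x hx => D.u_le x hx)
  rw [lintegral_const, measure_univ, mul_one] at h
  exact ENNReal.mul_lt_top (by simp) (lt_of_le_of_lt h D.bound_ne_top.lt_top)

theorem base_null_of_disjoint {s : Set R3} (hs : MeasurableSet s) (hd : Disjoint s D.A) :
    D.base s = 0 := by
  rw [base, Measure.restrict_apply hs, hd.inter_eq, measure_empty]

theorem half_key {T2 T3 : R3 → R3} (hT2 : Measurable T2) (hT3 : Measurable T3)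
    (e2 : D.mu.map T2 = D.mu) (e3 : D.mu.map T3 = D.mu)
    (hperm : ∀ᵐ x ∂D.mu, ∃ i, ∃ a ∈ D.A, IsPerm3 a (D.T i a) (D.S i a) x (T2 x) (T3 x))
    (i : Bool) : D.base (D.A ∩ T2 ⁻¹' (D.T i '' D.A ∪ D.S i '' D.A)) = 0 := by
  have := D.isProbabilityMeasure
  have hbA := fun s hs hd => D.base_null_of_disjoint (s := s) hs hd
  set s := D.A ∩ T2 ⁻¹' (D.T i '' D.A ∪ D.S i '' D.A) with hs_def
  have hs : MeasurableSet s := D.measA.inter (hT2 ((D.measurableSet_imT D.measA subset_rfl i).union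
    (D.measurableSet_imS D.measA subset_rfl i)))
  have hsA : s ⊆ D.A := inter_subset_left
  set sB := D.T i '' s with hsB_def
  set sC := D.S i '' s with hsC_def
  have mB : MeasurableSet sB := D.measurableSet_imT hs hsA i
  have mC : MeasurableSet sC := D.measurableSet_imS hs hsA i
  -- membership facts
  have A_B : ∀ a ∈ D.A, a ∉ sB := by
    rintro a ha ⟨b, hb, rfl⟩
    exact D.T_notA i b (hsA hb) ha
  have A_C : ∀ a ∈ D.A, a ∉ sC := by
    rintro a ha ⟨b, hb, rfl⟩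
    exact D.S_notA i b (hsA hb) ha
  have T_B : ∀ j, ∀ a ∈ D.A, (D.T j a ∈ sB ↔ j = i ∧ a ∈ s) := by
    intro j a ha
    refine ⟨?_, ?_⟩
    · rintro ⟨b, hb, hbe⟩
      obtain rfl := D.T_ne_T i j b (hsA hb) a ha hbe
      exact ⟨rfl, (D.injT i (hsA hb) ha hbe) ▸ hb⟩
    · rintro ⟨rfl, h⟩
      exact mem_image_of_mem _ h
  have S_C : ∀ j, ∀ a ∈ D.A, (D.S j a ∈ sC ↔ j = i ∧ a ∈ s) := by
    intro j a ha
    refine ⟨?_, ?_⟩
    · rintro ⟨b, hb, hbe⟩
      obtain rfl := D.S_ne_S i j b (hsA hb) a ha hbe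
      exact ⟨rfl, (D.injS i (hsA hb) ha hbe) ▸ hb⟩
    · rintro ⟨rfl, h⟩
      exact mem_image_of_mem _ h
  have T_C : ∀ j, ∀ a ∈ D.A, D.T j a ∉ sC := by
    rintro j a ha ⟨b, hb, hbe⟩
    exact D.T_ne_S j i a ha b (hsA hb) hbe.symm
  have S_B : ∀ j, ∀ a ∈ D.A, D.S j a ∉ sB := by
    rintro j a ha ⟨b, hb, hbe⟩
    exact D.T_ne_S i j b (hsA hb) a ha hbe
  have T_s : ∀ j, ∀ a ∈ D.A, D.T j a ∉ s := fun j a ha h => D.T_notA j a ha (hsA h)
  have S_s : ∀ j, ∀ a ∈ D.A, D.S j a ∉ s := fun j a ha h => D.S_notA j a ha (hsA h)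
  have mem_s : ∀ j, ∀ a ∈ D.A,
      (T2 a = D.T j a ∨ T2 a = D.S j a) → (a ∈ s → j = i) := by
    rintro j a ha h ⟨_, h'⟩
    rcases h' with ⟨b, hb, hbe⟩ | ⟨b, hb, hbe⟩ <;> rcases h with h | h <;> rw [h] at hbe
    · exact (D.T_ne_T i j b hb a ha hbe).symm
    · exact absurd hbe (D.T_ne_S i j b hb a ha)
    · exact absurd hbe.symm (D.T_ne_S j i a ha b hb)
    · exact (D.S_ne_S i j b hb a ha hbe).symm
  have ident : ∀ᵐ x ∂D.mu,
      sB.indicator (1 : R3 → ℝ≥0∞) x + sB.indicator 1 (T2 x) + sB.indicator 1 (T3 x)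
        = sB.indicator 1 x + sC.indicator 1 x + s.indicator 1 x := by
    filter_upwards [hperm] with x hx
    obtain ⟨j, a, ha, hp⟩ := hx
    have q1 : sB.indicator (1 : R3 → ℝ≥0∞) a = 0 := indicator_of_notMem (A_B a ha) _
    have q2 : sC.indicator (1 : R3 → ℝ≥0∞) a = 0 := indicator_of_notMem (A_C a ha) _
    have q3 : sC.indicator (1 : R3 → ℝ≥0∞) (D.T j a) = 0 := indicator_of_notMem (T_C j a ha) _
    have q4 : sB.indicator (1 : R3 → ℝ≥0∞) (D.S j a) = 0 := indicator_of_notMem (S_B j a ha) _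
    have q5 : s.indicator (1 : R3 → ℝ≥0∞) (D.T j a) = 0 := indicator_of_notMem (T_s j a ha) _
    have q6 : s.indicator (1 : R3 → ℝ≥0∞) (D.S j a) = 0 := indicator_of_notMem (S_s j a ha) _
    have eBC : sC.indicator (1 : R3 → ℝ≥0∞) (D.S j a) = sB.indicator 1 (D.T j a) := by
      classical
      simp only [indicator_apply, T_B j a ha, S_C j a ha]
      rfl
    have esB : (T2 a = D.T j a ∨ T2 a = D.S j a) →
        s.indicator (1 : R3 → ℝ≥0∞) a = sB.indicator 1 (D.T j a) := by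
      intro h
      classical
      simp only [indicator_apply, T_B j a ha]
      by_cases has : a ∈ s
      · simp [has, mem_s j a ha h has]
      · simp [has]
    rcases hp with ⟨hx1, hy, hz⟩ | ⟨hx1, hy, hz⟩ | ⟨hx1, hy, hz⟩ | ⟨hx1, hy, hz⟩ |
      ⟨hx1, hy, hz⟩ | ⟨hx1, hy, hz⟩ <;> rw [hy, hz, hx1]
    · rw [q1, q2, q4, esB (Or.inl (hx1 ▸ hy))]; ring
    · rw [q1, q2, q4, esB (Or.inr (hx1 ▸ hy))]
    · rw [q1, q4, q3, q5]
    · rw [q1, q4, q3, q5]
    · rw [q1, q4, eBC, q6]; ring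
    · rw [q1, q4, eBC, q6]
  have mS : D.mu s = D.kap * D.base s := by
    have z1 : ∀ j, D.base (D.T j ⁻¹' s) = 0 := fun j => hbA _ (D.measT j hs)
      (disjoint_left.2 fun a ha hA => T_s j a hA ha)
    have z2 : ∀ j, D.base (D.S j ⁻¹' s) = 0 := fun j => hbA _ (D.measS j hs)
      (disjoint_left.2 fun a ha hA => S_s j a hA ha)
    simp [mu, Measure.map_apply (D.measT _) hs, Measure.map_apply (D.measS _) hs, z1, z2]
  have mSB : D.mu sB = D.kap * ((2 : ℝ≥0∞)⁻¹ * D.base s) := by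
    have z0 : D.base sB = 0 :=
      hbA _ mB (disjoint_left.2 fun a ha hA => A_B a hA ha)
    have z2 : ∀ j, D.base (D.S j ⁻¹' sB) = 0 := fun j => hbA _ (D.measS j mB)
      (disjoint_left.2 fun a ha hA => S_B j a hA ha)
    have z1 : D.base (D.T i ⁻¹' sB) = D.base s := by
      apply measure_congr
      refine D.ae_base.mono fun a ha => ?_
      exact propext ((T_B i a ha).trans ⟨fun h => h.2, fun h => ⟨rfl, h⟩⟩)
    have z3 : D.base (D.T (!i) ⁻¹' sB) = 0 := hbA _ (D.measT _ mB)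
      (disjoint_left.2 fun a ha hA => by
        have h := ((T_B (!i) a hA).1 ha).1
        cases i <;> simp at h)
    cases i <;>
    · simp only [Bool.not_true, Bool.not_false] at z3
      simp [mu, Measure.map_apply (D.measT _) mB, Measure.map_apply (D.measS _) mB,
        z0, z1, z2, z3]
  have mSC : D.mu sC = D.kap * ((2 : ℝ≥0∞)⁻¹ * D.base s) := by
    have z0 : D.base sC = 0 :=
      hbA _ mC (disjoint_left.2 fun a ha hA => A_C a hA ha)
    have z2 : ∀ j, D.base (D.T j ⁻¹' sC) = 0 := fun j => hbA _ (D.measT j mC)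
      (disjoint_left.2 fun a ha hA => T_C j a hA ha)
    have z1 : D.base (D.S i ⁻¹' sC) = D.base s := by
      apply measure_congr
      refine D.ae_base.mono fun a ha => ?_
      exact propext ((S_C i a ha).trans ⟨fun h => h.2, fun h => ⟨rfl, h⟩⟩)
    have z3 : D.base (D.S (!i) ⁻¹' sC) = 0 := hbA _ (D.measS _ mC)
      (disjoint_left.2 fun a ha hA => by
        have h := ((S_C (!i) a hA).1 ha).1
        cases i <;> simp at h)
    cases i <;>
    · simp only [Bool.not_true, Bool.not_false] at z3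
      simp [mu, Measure.map_apply (D.measT _) mC, Measure.map_apply (D.measS _) mC,
        z0, z1, z2, z3]
  have hI := lintegral_congr_ae ident
  have g : Measurable (sB.indicator (1 : R3 → ℝ≥0∞)) := measurable_one.indicator mB
  have gC : Measurable (sC.indicator (1 : R3 → ℝ≥0∞)) := measurable_one.indicator mC
  rw [lintegral_add_left (by fun_prop), lintegral_add_left (by fun_prop),
    lintegral_add_left (by fun_prop), lintegral_add_left (by fun_prop),
    ← lintegral_map g hT2, ← lintegral_map g hT3, e2, e3,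
    lintegral_indicator_one mB, lintegral_indicator_one mC, lintegral_indicator_one hs,
    mSB, mSC, mS] at hI
  set h := D.kap * ((2 : ℝ≥0∞)⁻¹ * D.base s) with hh
  have hfin : h ≠ ⊤ := mSB ▸ measure_ne_top _ _
  have h2 : D.kap * D.base s = h + h := by
    rw [hh, ← mul_add, ← add_mul, ENNReal.inv_two_add_inv_two, one_mul]
  rw [h2] at hI
  have : h = 0 := by
    have h3 : (h + h + h) + 0 = (h + h + h) + h := by rw [add_zero]; nth_rewrite 1 [hI]; ring
    have := (ENNReal.add_right_inj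
      (ENNReal.add_ne_top.2 ⟨ENNReal.add_ne_top.2 ⟨hfin, hfin⟩, hfin⟩)).1 h3
    exact this.symm
  simpa [hh, D.kap_ne_zero] using this

theorem not_monge : ¬ ∃ T2 T3 : R3 → R3, Measurable T2 ∧ Measurable T3 ∧
    D.mu.map T2 = D.mu ∧ D.mu.map T3 = D.mu ∧
    ∫⁻ x, coulomb x (T2 x) (T3 x) ∂D.mu = kantorovich D.mu := by
  rintro ⟨T2, T3, hT2, hT3, e2, e3, hc⟩
  have := D.isProbabilityMeasure
  let G : R3 → R3 × R3 × R3 := fun x => (x, T2 x, T3 x)
  have hG : Measurable G := by fun_prop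
  have hcpl : IsCoupling D.mu (D.mu.map G) := by
    refine ⟨?_, ?_, ?_⟩
    · rw [Measure.map_map (by fun_prop) hG]
      exact Measure.map_id
    · rw [Measure.map_map (by fun_prop) hG]
      exact e2
    · rw [Measure.map_map (by fun_prop) hG]
      exact e3
  have hu := D.measu
  have hval : ∫⁻ x, D.u x + D.u (T2 x) + D.u (T3 x) ∂D.mu = D.dual := by
    have hm : Measurable fun p : R3 × R3 × R3 => D.u p.1 + D.u p.2.1 + D.u p.2.2 := by fun_prop
    rw [← D.lintegral_usum hcpl, lintegral_map hm hG]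
  have hle : ∀ᵐ x ∂D.mu, (x ∈ D.supp ∧ T2 x ∈ D.supp ∧ T3 x ∈ D.supp) ∧
      D.u x + D.u (T2 x) + D.u (T3 x) ≤ coulomb x (T2 x) (T3 x) :=
    ae_of_ae_map (p := fun p : R3 × R3 × R3 => (p.1 ∈ D.supp ∧ p.2.1 ∈ D.supp ∧ p.2.2 ∈ D.supp) ∧
      D.u p.1 + D.u p.2.1 + D.u p.2.2 ≤ coulomb p.1 p.2.1 p.2.2)
      hG.aemeasurable (D.ae_usum_le hcpl)
  have hcm : Measurable fun x => coulomb x (T2 x) (T3 x) := by
    unfold coulomb
    fun_prop
  have heq : (fun x => D.u x + D.u (T2 x) + D.u (T3 x))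
      =ᵐ[D.mu] fun x => coulomb x (T2 x) (T3 x) := by
    refine ae_eq_of_ae_le_of_lintegral_le (hle.mono fun x hx => hx.2) ?_ hcm.aemeasurable ?_
    · rw [hval]; exact D.dual_lt_top.ne
    · rw [hval, hc, D.kantorovich_eq]
  have hperm : ∀ᵐ x ∂D.mu, ∃ i, ∃ a ∈ D.A, IsPerm3 a (D.T i a) (D.S i a) x (T2 x) (T3 x) := by
    filter_upwards [hle, heq] with x hx hx'
    exact (D.cert _ hx.1.1 _ hx.1.2.1 _ hx.1.2.2).2 hx'
  let J : Bool → Set R3 := fun i => T2 ⁻¹' (D.T i '' D.A ∪ D.S i '' D.A)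
  have hJ : ∀ i, MeasurableSet (J i) := fun i => hT2 ((D.measurableSet_imT D.measA subset_rfl i).union
    (D.measurableSet_imS D.measA subset_rfl i))
  have key := fun i => D.half_key hT2 hT3 e2 e3 hperm i
  have cover : ∀ᵐ x ∂D.mu, x ∈ D.A → x ∈ J true ∪ J false := by
    filter_upwards [hperm] with x hx hxA
    obtain ⟨j, a, ha, hp⟩ := hx
    have hmem : x ∈ J j := by
      rcases hp with ⟨hx1, hy, _⟩ | ⟨hx1, hy, _⟩ | ⟨hx1, _⟩ | ⟨hx1, _⟩ | ⟨hx1, _⟩ | ⟨hx1, _⟩
      · exact Or.inl ⟨a, ha, hy.symm⟩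
      · exact Or.inr ⟨a, ha, hy.symm⟩
      · exact absurd (hx1 ▸ hxA) (D.T_notA j a ha)
      · exact absurd (hx1 ▸ hxA) (D.T_notA j a ha)
      · exact absurd (hx1 ▸ hxA) (D.S_notA j a ha)
      · exact absurd (hx1 ▸ hxA) (D.S_notA j a ha)
    cases j
    · exact Or.inr hmem
    · exact Or.inl hmem
  have hN : D.mu (D.A \ (J true ∪ J false)) = 0 := by
    refine measure_mono_null ?_ (ae_iff.1 cover)
    intro x hx
    exact fun h => hx.2 (h hx.1)
  have hN' : D.base (D.A \ (J true ∪ J false)) = 0 := by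
    have hle' : D.kap * D.base (D.A \ (J true ∪ J false)) ≤ D.mu (D.A \ (J true ∪ J false)) := by
      simp only [mu, Measure.smul_apply, Measure.add_apply, smul_eq_mul]
      gcongr
      exact le_add_right le_rfl
    rw [hN] at hle'
    exact (mul_eq_zero.1 (le_antisymm hle' bot_le)).resolve_left D.kap_ne_zero
  have hAA : D.base D.A = 0 := by
    refine measure_mono_null (t := (D.A \ (J true ∪ J false)) ∪ (D.A ∩ J true) ∪ (D.A ∩ J false))
      ?_ ?_
    · intro x hx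
      by_cases h1 : x ∈ J true
      · exact Or.inl (Or.inr ⟨hx, h1⟩)
      · by_cases h2 : x ∈ J false
        · exact Or.inr ⟨hx, h2⟩
        · exact Or.inl (Or.inl ⟨hx, by simp [h1, h2]⟩)
    · exact measure_union_null (measure_union_null hN' (key true)) (key false)
  rw [base, Measure.restrict_apply D.measA, inter_self] at hAA
  exact D.volA_ne_zero hAA

theorem main (D : Sheets) : ∃ μ : Measure R3, IsProbabilityMeasure μ ∧ μ ≪ volume ∧ kantorovich μ < ⊤ ∧
    ¬ ∃ T2 T3 : R3 → R3, Measurable T2 ∧ Measurable T3 ∧ μ.map T2 = μ ∧ μ.map T3 = μ ∧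
      ∫⁻ x, coulomb x (T2 x) (T3 x) ∂μ = kantorovich μ :=
  ⟨D.mu, D.isProbabilityMeasure, D.mu_ac, D.kantorovich_eq ▸ D.dual_lt_top, D.not_monge⟩

end Sheets

end Vale.Agent.P121
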