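import Vale.Agent.P121.Defs

/-! Calculus of the Coulomb kernel, and the modified cost `Phi`. -/

namespace Vale.Agent.P121

open Filter Topology Set
open scoped RealInnerProductSpace

/-- The radial kernel `v / |v|^3`. -/
noncomputable def kfun (v : R3) : R3 := (‖v‖ ^ 3)⁻¹ • v

theorem kfun_neg (v : R3) : kfun (-v) = -kfun v := by simp [kfun]

/-- The derivative of `kfun` at `v`. -/
noncomputable def kderiv (v : R3) : R3 →L[ℝ] R3 :=
  (‖v‖ ^ 3)⁻¹ • ContinuousLinearMap.id ℝ R3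
    - (3 * (‖v‖ ^ 5)⁻¹) • (innerSL ℝ v).smulRight v

theorem hasStrictFDerivAt_norm' {v : R3} (hv : v ≠ 0) :
    HasStrictFDerivAt (fun x : R3 => ‖x‖) (‖v‖⁻¹ • innerSL ℝ v) v := by
  have hn : ‖v‖ ≠ 0 := norm_ne_zero_iff.2 hv
  have h := (hasStrictFDerivAt_norm_sq v).sqrt (by positivity)
  simp only [Real.sqrt_sq (norm_nonneg _)] at h
  refine h.congr_fderiv ?_
  ext w
  simp
  field_simp

theorem hasStrictFDerivAt_kfun {v : R3} (hv : v ≠ 0) :
    HasStrictFDerivAt kfun (kderiv v) v := by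
  have hn : ‖v‖ ≠ 0 := norm_ne_zero_iff.2 hv
  have h1 := (hasStrictDerivAt_inv (pow_ne_zero 3 hn)).comp_hasStrictFDerivAt v
    ((hasStrictFDerivAt_norm' hv).pow 3)
  have h2 := h1.smul (hasStrictFDerivAt_id v)
  refine h2.congr_fderiv ?_
  ext w
  simp [kderiv]
  field_simp
  ring

/-- The inverse distance. -/
noncomputable def phi (v : R3) : ℝ := ‖v‖⁻¹

theorem phi_neg (v : R3) : phi (-v) = phi v := by simp [phi]

theorem hasDerivAt_phi {f : ℝ → R3} {f' : R3} {t : ℝ} (hf : HasDerivAt f f' t) (h0 : f t ≠ 0) :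
    HasDerivAt (fun s => phi (f s)) (-⟪kfun (f t), f'⟫) t := by
  have hn : ‖f t‖ ≠ 0 := norm_ne_zero_iff.2 h0
  have h1 := (hasStrictFDerivAt_norm' h0).hasFDerivAt.comp_hasDerivAt t hf
  have h2 : HasDerivAt (fun s => ‖f s‖⁻¹)
      (-((‖f t‖⁻¹ • innerSL ℝ (f t)) f') / ‖f t‖ ^ 2) t := h1.inv hn
  refine h2.congr_deriv ?_
  simp [kfun, real_inner_smul_left]
  field_simp

/-- The first unit vector. -/
noncomputable def e0 : R3 := EuclideanSpace.single 0 1

/-- The potential on the central cluster. -/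
noncomputable def afun (x : R3) : ℝ := 2 - 6 * ‖x‖ ^ 2

/-- The potential on the third cluster. -/
noncomputable def gfun (z : R3) : ℝ :=
  1 / 4 - 6 * ‖z + e0‖ ^ 2 + 5 / 4 * ⟪z + e0, e0⟫

/-- Triples of points. -/
abbrev P3 := R3 × R3 × R3

/-- The cost minus the prescribed potentials. -/
noncomputable def Phi (p : P3) : ℝ :=
  phi (p.1 - p.2.1) + phi (p.1 - p.2.2) + phi (p.2.1 - p.2.2) - afun p.1 - gfun p.2.2

/-- The gradient of `Phi` in the first variable. -/
noncomputable def gx (p : P3) : R3 :=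
  -kfun (p.1 - p.2.1) - kfun (p.1 - p.2.2) + (12 : ℝ) • p.1

/-- The gradient of `Phi` in the third variable. -/
noncomputable def gz (p : P3) : R3 :=
  -kfun (p.2.2 - p.1) - kfun (p.2.2 - p.2.1) + (12 : ℝ) • (p.2.2 + e0) - (5 / 4 : ℝ) • e0

/-- The critical point map. -/
noncomputable def crit (p : P3) : P3 := (p.1, gx p, gz p)

theorem hasDerivAt_Phi_line (x dx y z dz : R3) (t : ℝ)
    (h1 : x + t • dx - y ≠ 0) (h2 : x + t • dx - (z + t • dz) ≠ 0)
    (h3 : y - (z + t • dz) ≠ 0) :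
    HasDerivAt (fun s : ℝ => Phi (x + s • dx, y, z + s • dz))
      (⟪gx (x + t • dx, y, z + t • dz), dx⟫ + ⟪gz (x + t • dx, y, z + t • dz), dz⟫) t := by
  have lx : HasDerivAt (fun s : ℝ => x + s • dx) dx t := by
    simpa using ((hasDerivAt_id t).smul_const dx).const_add x
  have lz : HasDerivAt (fun s : ℝ => z + s • dz) dz t := by
    simpa using ((hasDerivAt_id t).smul_const dz).const_add z
  have a1 := hasDerivAt_phi (lx.sub_const y) h1
  have a2 := hasDerivAt_phi (lx.sub lz) h2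
  have a3 := hasDerivAt_phi (lz.const_sub y) h3
  have a4 : HasDerivAt (fun s : ℝ => afun (x + s • dx)) (-(6 * (2 * ⟪x + t • dx, dx⟫))) t :=
    (lx.norm_sq.const_mul 6).const_sub 2
  have a5a := (((lz.add_const e0).norm_sq).const_mul 6).const_sub (1 / 4 : ℝ)
  have a5b := ((lz.add_const e0).inner ℝ (hasDerivAt_const t e0)).const_mul (5 / 4 : ℝ)
  have a5 := a5a.add a5b
  have tot := (((a1.add a2).add a3).sub a4).sub a5
  refine tot.congr_deriv ?_
  have n1 : z + t • dz - (x + t • dx) = -(x + t • dx - (z + t • dz)) := by abel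
  have n2 : z + t • dz - y = -(y - (z + t • dz)) := by abel
  simp only [gx, gz, n1, n2, kfun_neg, Pi.sub_apply, inner_add_left, inner_sub_left,
    inner_neg_left, inner_smul_left, inner_sub_right, inner_neg_right, inner_zero_right,
    inner_add_left, RCLike.conj_to_real, real_inner_comm dz e0]
  ring

/-- The centre of the first sheet. -/
noncomputable def ctr : P3 := (0, e0, -e0)

theorem norm_e0 : ‖e0‖ = 1 := by simp [e0]

theorem e0_ne_zero : e0 ≠ 0 := by
  intro h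
  have := norm_e0
  simp [h] at this

/-- The reflection `h ↦ 3 h₀ e₀ - h`. -/
noncomputable def dd : R3 →L[ℝ] R3 :=
  (3 : ℝ) • (innerSL ℝ e0).smulRight e0 - ContinuousLinearMap.id ℝ R3

theorem inner_e0 (h : R3) : ⟪e0, h⟫ = h 0 := by
  simp [e0, EuclideanSpace.inner_single_left]

theorem dd_apply (h : R3) (i : Fin 3) : dd h i = (if i = 0 then 2 else -1) * h i := by
  fin_cases i <;> simp [dd, inner_e0] <;> simp [e0]; ring

/-- The derivative of `crit` at `ctr`. -/
noncomputable def critD : P3 →L[ℝ] P3 :=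
  let X := ContinuousLinearMap.fst ℝ R3 (R3 × R3)
  let Y := (ContinuousLinearMap.fst ℝ R3 R3).comp (ContinuousLinearMap.snd ℝ R3 (R3 × R3))
  let Z := (ContinuousLinearMap.snd ℝ R3 R3).comp (ContinuousLinearMap.snd ℝ R3 (R3 × R3))
  X.prod ((dd.comp (X - Y) + dd.comp (X - Z) + (12 : ℝ) • X).prod
    (dd.comp (Z - X) + (1 / 8 : ℝ) • dd.comp (Z - Y) + (12 : ℝ) • Z))

theorem critD_apply (h : P3) : critD h = (h.1,
    dd (h.1 - h.2.1) + dd (h.1 - h.2.2) + (12 : ℝ) • h.1,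
    dd (h.2.2 - h.1) + (1 / 8 : ℝ) • dd (h.2.2 - h.2.1) + (12 : ℝ) • h.2.2) := by
  rfl

theorem kderiv_smul_e0 (s : ℝ) (hs : s ≠ 0) (w : R3) :
    kderiv (s • e0) w = -((|s| ^ 3)⁻¹ • dd w) := by
  have h5 : |s| ^ 5 = |s| ^ 3 * s ^ 2 := by
    rw [← sq_abs s]; ring
  ext i
  simp [kderiv, dd, norm_smul, norm_e0, h5]
  field_simp
  ring

theorem hasStrictFDerivAt_crit : HasStrictFDerivAt crit critD ctr := by
  have cx : HasStrictFDerivAt (fun p : P3 => p.1) (ContinuousLinearMap.fst ℝ R3 (R3 × R3)) ctr :=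
    (ContinuousLinearMap.fst ℝ R3 (R3 × R3)).hasStrictFDerivAt
  have cy : HasStrictFDerivAt (fun p : P3 => p.2.1)
      ((ContinuousLinearMap.fst ℝ R3 R3).comp (ContinuousLinearMap.snd ℝ R3 (R3 × R3))) ctr :=
    ((ContinuousLinearMap.fst ℝ R3 R3).comp
      (ContinuousLinearMap.snd ℝ R3 (R3 × R3))).hasStrictFDerivAt
  have cz : HasStrictFDerivAt (fun p : P3 => p.2.2)
      ((ContinuousLinearMap.snd ℝ R3 R3).comp (ContinuousLinearMap.snd ℝ R3 (R3 × R3))) ctr :=
    ((ContinuousLinearMap.snd ℝ R3 R3).comp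
      (ContinuousLinearMap.snd ℝ R3 (R3 × R3))).hasStrictFDerivAt
  have v1 : ctr.1 - ctr.2.1 = (-1 : ℝ) • e0 := by simp [ctr]
  have v2 : ctr.1 - ctr.2.2 = (1 : ℝ) • e0 := by simp [ctr]
  have v3 : ctr.2.2 - ctr.1 = (-1 : ℝ) • e0 := by simp [ctr]
  have v4 : ctr.2.2 - ctr.2.1 = (-2 : ℝ) • e0 := by simp [ctr]; module
  have ne : ∀ s : ℝ, s ≠ 0 → s • e0 ≠ 0 := fun s hs => smul_ne_zero hs e0_ne_zero
  have k1 := (hasStrictFDerivAt_kfun (by rw [Pi.sub_apply, v1]; exact ne _ (by norm_num))).comp ctr (cx.sub cy)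
  have k2 := (hasStrictFDerivAt_kfun (by rw [Pi.sub_apply, v2]; exact ne _ (by norm_num))).comp ctr (cx.sub cz)
  have k3 := (hasStrictFDerivAt_kfun (by rw [Pi.sub_apply, v3]; exact ne _ (by norm_num))).comp ctr (cz.sub cx)
  have k4 := (hasStrictFDerivAt_kfun (by rw [Pi.sub_apply, v4]; exact ne _ (by norm_num))).comp ctr (cz.sub cy)
  have hx := (k1.neg.sub k2).add (cx.const_smul (12 : ℝ))
  have hz := ((k3.neg.sub k4).add ((cz.add_const e0).const_smul (12 : ℝ))).sub_const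
    ((5 / 4 : ℝ) • e0)
  refine (cx.prodMk (hx.prodMk hz)).congr_fderiv (ContinuousLinearMap.ext fun h => ?_)
  rw [critD_apply]
  simp only [ContinuousLinearMap.prod_apply, _root_.add_apply,
    _root_.sub_apply, _root_.neg_apply, ContinuousLinearMap.comp_apply,
    _root_.smul_apply, ContinuousLinearMap.coe_fst', ContinuousLinearMap.coe_snd',
    Pi.sub_apply, v1, v2, v3, v4, kderiv_smul_e0 _ (by norm_num : (-1 : ℝ) ≠ 0),
    kderiv_smul_e0 _ (by norm_num : (1 : ℝ) ≠ 0), kderiv_smul_e0 _ (by norm_num : (-2 : ℝ) ≠ 0)]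
  norm_num
  abel

theorem crit_ctr : crit ctr = 0 := by
  have h : ∀ s : ℝ, kfun (s • e0) = (s / |s| ^ 3) • e0 := fun s => by
    simp [kfun, norm_smul, norm_e0, smul_smul, div_eq_inv_mul]
  simp only [crit, gx, gz, ctr, Prod.mk_eq_zero]
  refine ⟨trivial, ?_, ?_⟩
  · rw [show (0 : R3) - e0 = (-1 : ℝ) • e0 by module,
      show (0 : R3) - -e0 = (1 : ℝ) • e0 by module, h, h]
    norm_num
  · rw [show -e0 - 0 = (-1 : ℝ) • e0 by module, show -e0 - e0 = (-2 : ℝ) • e0 by module, h, h]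
    norm_num
    module

/-- The quadratic lower bound for the second derivative in the first and third variables. -/
theorem critD_quad (a c : R3) :
    8 * (‖a‖ ^ 2 + ‖c‖ ^ 2) ≤ ⟪(critD (a, 0, c)).2.1, a⟫ + ⟪(critD (a, 0, c)).2.2, c⟫ := by
  simp [critD_apply, EuclideanSpace.norm_sq_eq, PiLp.inner_apply, Fin.sum_univ_three, dd_apply]
  nlinarith [sq_nonneg (a 0 - c 0), sq_nonneg (a 1 + c 1), sq_nonneg (a 2 + c 2),
    sq_nonneg (a 0), sq_nonneg (a 1), sq_nonneg (a 2), sq_nonneg (c 0), sq_nonneg (c 1),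
    sq_nonneg (c 2)]

theorem critD_injective : Function.Injective critD := by
  refine (injective_iff_map_eq_zero critD).2 fun h h0 => ?_
  simp only [critD_apply, Prod.mk_eq_zero] at h0
  obtain ⟨a, b, c⟩ := h
  obtain ⟨rfl, h1, h2⟩ := h0
  have key : ∀ i : Fin 3, b i = 0 ∧ c i = 0 := by
    intro i
    have e1 := congrArg (fun w : R3 => w i) h1
    have e2 := congrArg (fun w : R3 => w i) h2
    fin_cases i <;> simp [dd_apply] at e1 e2 ⊢ <;> constructor <;> linarith
  simp only [Prod.mk_eq_zero]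
  refine ⟨trivial, ?_, ?_⟩ <;> ext i
  · exact (key i).1
  · exact (key i).2

theorem critD_snd_inj {a w : R3} (h : critD (a, 0, w) = (a, 0, 0)) : a = 0 := by
  simp only [critD_apply, Prod.mk.injEq] at h
  ext i
  have e1 := congrArg (fun v : R3 => v i) h.2.1
  have e2 := congrArg (fun v : R3 => v i) h.2.2
  fin_cases i <;> simp [dd_apply] at e1 e2 ⊢ <;> linarith

theorem critD_trd_inj {a v : R3} (h : critD (a, v, 0) = (a, 0, 0)) : a = 0 := by
  simp only [critD_apply, Prod.mk.injEq] at h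
  ext i
  have e1 := congrArg (fun v : R3 => v i) h.2.1
  have e2 := congrArg (fun v : R3 => v i) h.2.2
  fin_cases i <;> simp [dd_apply] at e1 e2 ⊢ <;> linarith

end Vale.Agent.P121
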