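import Vale.Agent.P121.Calculus

/-! The local sheet through `ctr` and its minimality. -/

namespace Vale.Agent.P121

open Filter Topology Set MeasureTheory Metric
open scoped RealInnerProductSpace ENNReal

theorem exists_strict_min : ∃ r > (0 : ℝ), r ≤ 1 / 4 ∧ ∀ x y z x' z' : R3,
    (x, y, z) ∈ ball ctr r → (x', y, z') ∈ ball ctr r → gx (x, y, z) = 0 → gz (x, y, z) = 0 →
      (x', z') ≠ (x, z) → Phi (x, y, z) < Phi (x', y, z') := by
  have h := hasStrictFDerivAt_crit.isLittleO.def one_pos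
  obtain ⟨r0, hr0, hr⟩ := Metric.eventually_nhds_iff.1 h
  refine ⟨min r0 (1 / 4), lt_min hr0 (by norm_num), min_le_right _ _, ?_⟩
  intro x y z x' z' hp hp' hgx hgz hne
  set r := min r0 (1 / 4) with hr_def
  set dx := x' - x
  set dz := z' - z
  have hd : 0 < ‖dx‖ ^ 2 + ‖dz‖ ^ 2 := by
    by_contra hh
    apply hne
    have a1 : ‖dx‖ = 0 := by nlinarith [norm_nonneg dx, norm_nonneg dz]
    have a2 : ‖dz‖ = 0 := by nlinarith [norm_nonneg dx, norm_nonneg dz]
    rw [norm_eq_zero, sub_eq_zero] at a1 a2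
    rw [a1, a2]
  have hmem : ∀ t ∈ Icc (0 : ℝ) 1, (x + t • dx, y, z + t • dz) ∈ ball ctr r := by
    intro t ht
    have := (convex_ball ctr r).add_smul_sub_mem hp hp' ht
    simpa [dx, dz] using this
  have hnz : ∀ p ∈ ball ctr r, p.1 - p.2.1 ≠ 0 ∧ p.1 - p.2.2 ≠ 0 ∧ p.2.1 - p.2.2 ≠ 0 := by
    intro p hp
    have hp4 : dist p ctr < 1 / 4 := (mem_ball.1 hp).trans_le (min_le_right _ _)
    simp only [Prod.dist_eq, ctr, max_lt_iff] at hp4
    obtain ⟨b1, b2, b3⟩ := hp4
    have e2 : dist (e0 : R3) (-e0) = 2 := by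
      rw [dist_eq_norm, show e0 - -e0 = (2 : ℝ) • e0 by module, norm_smul, norm_e0]
      norm_num
    have e1 : dist (0 : R3) e0 = 1 := by simp [norm_e0]
    have e1' : dist (0 : R3) (-e0) = 1 := by simp [norm_e0]
    refine ⟨?_, ?_, ?_⟩ <;> rw [sub_ne_zero] <;> intro he
    · have h2 : dist p.1 e0 < 1 / 4 := he ▸ b2
      linarith [dist_triangle_left (0 : R3) e0 p.1]
    · have h3 : dist p.1 (-e0) < 1 / 4 := he ▸ b3
      linarith [dist_triangle_left (0 : R3) (-e0) p.1]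
    · have h3 : dist p.2.1 (-e0) < 1 / 4 := he ▸ b3
      linarith [dist_triangle_left e0 (-e0) p.2.1]
  let f : ℝ → ℝ := fun t => Phi (x + t • dx, y, z + t • dz)
  let f' : ℝ → ℝ := fun t =>
    ⟪gx (x + t • dx, y, z + t • dz), dx⟫ + ⟪gz (x + t • dx, y, z + t • dz), dz⟫
  have hder : ∀ t ∈ Icc (0 : ℝ) 1, HasDerivAt f (f' t) t := by
    intro t ht
    obtain ⟨n1, n2, n3⟩ := hnz _ (hmem t ht)
    exact hasDerivAt_Phi_line x dx y z dz t n1 n2 n3
  have hpos : ∀ t ∈ Ioo (0 : ℝ) 1, 0 < f' t := by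
    intro t ht
    have hq := hmem t (Ioo_subset_Icc_self ht)
    set q : P3 := (x + t • dx, y, z + t • dz) with hq_def
    have hb := hr (y := (q, (x, y, z))) (by
      simp only [Prod.dist_eq (x := (q, (x, y, z)))]
      exact max_lt ((mem_ball.1 hq).trans_le (min_le_left _ _))
        ((mem_ball.1 hp).trans_le (min_le_left _ _)))
    simp only [one_mul] at hb
    have hsub : q - (x, y, z) = t • ((dx, 0, dz) : P3) := by simp [q]
    rw [hsub, map_smul, norm_smul, Real.norm_eq_abs, abs_of_pos ht.1] at hb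
    set R : P3 := crit q - crit (x, y, z) - t • critD (dx, 0, dz) with hR
    have hRx : gx q = t • (critD (dx, 0, dz)).2.1 + R.2.1 := by
      simp [hR, crit, hgx]
    have hRz : gz q = t • (critD (dx, 0, dz)).2.2 + R.2.2 := by
      simp [hR, crit, hgz]
    have hn : ‖((dx, 0, dz) : P3)‖ ≤ ‖dx‖ + ‖dz‖ := by
      simp only [Prod.norm_def, norm_zero]
      refine max_le ?_ (max_le ?_ ?_) <;> linarith [norm_nonneg dx, norm_nonneg dz]
    have hb1 : ‖R.2.1‖ ≤ t * (‖dx‖ + ‖dz‖) :=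
      ((norm_fst_le R.2).trans ((norm_snd_le R).trans hb)).trans
        (mul_le_mul_of_nonneg_left hn ht.1.le)
    have hb2 : ‖R.2.2‖ ≤ t * (‖dx‖ + ‖dz‖) :=
      ((norm_snd_le R.2).trans ((norm_snd_le R).trans hb)).trans
        (mul_le_mul_of_nonneg_left hn ht.1.le)
    have i1 := (abs_le.1 ((abs_real_inner_le_norm R.2.1 dx).trans
      (mul_le_mul_of_nonneg_right hb1 (norm_nonneg dx)))).1
    have i2 := (abs_le.1 ((abs_real_inner_le_norm R.2.2 dz).trans
      (mul_le_mul_of_nonneg_right hb2 (norm_nonneg dz)))).1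
    have hquad := critD_quad dx dz
    change 0 < ⟪gx q, dx⟫ + ⟪gz q, dz⟫
    rw [hRx, hRz, inner_add_left, inner_add_left, real_inner_smul_left, real_inner_smul_left]
    nlinarith [mul_pos ht.1 hd, mul_nonneg ht.1.le (sq_nonneg (‖dx‖ - ‖dz‖))]
  have hmono : StrictMonoOn f (Icc (0 : ℝ) 1) := by
    apply strictMonoOn_of_deriv_pos (convex_Icc 0 1)
    · exact fun t ht => (hder t ht).continuousAt.continuousWithinAt
    · intro t ht
      rw [interior_Icc] at ht
      rw [(hder t (Ioo_subset_Icc_self ht)).deriv]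
      exact hpos t ht
  have := hmono (left_mem_Icc.2 zero_le_one) (right_mem_Icc.2 zero_le_one) zero_lt_one
  simpa [f, dx, dz] using this

theorem exists_antilip {f : R3 → R3} {L : R3 →L[ℝ] R3} {a : R3}
    (hf : HasStrictFDerivAt f L a) (hL : ∀ h, L h = 0 → h = 0) :
    ∃ K : ℝ, ∀ᶠ p : R3 × R3 in 𝓝 (a, a), ‖p.1 - p.2‖ ≤ K * ‖f p.1 - f p.2‖ := by
  have hinj : Function.Injective L.toLinearMap :=
    (injective_iff_map_eq_zero L.toLinearMap).2 hL
  let e : R3 ≃L[ℝ] R3 := (LinearEquiv.ofInjectiveEndo L.toLinearMap hinj).toContinuousLinearEquiv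
  set C : ℝ := ‖(e.symm : R3 →L[ℝ] R3)‖ + 1 with hC
  have hC0 : 0 < C := by positivity
  refine ⟨2 * C, ?_⟩
  filter_upwards [hf.isLittleO.def (show 0 < 1 / (2 * C) by positivity)] with p hp
  have h1 : ‖p.1 - p.2‖ ≤ C * ‖L (p.1 - p.2)‖ := by
    have := (e.symm : R3 →L[ℝ] R3).le_opNorm (e (p.1 - p.2))
    simp only [ContinuousLinearEquiv.coe_coe, ContinuousLinearEquiv.symm_apply_apply] at this
    have he : e (p.1 - p.2) = L (p.1 - p.2) := rfl
    rw [he] at this
    refine this.trans (mul_le_mul_of_nonneg_right ?_ (norm_nonneg _))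
    linarith
  have h2 : ‖L (p.1 - p.2)‖ ≤ ‖f p.1 - f p.2‖ + 1 / (2 * C) * ‖p.1 - p.2‖ := by
    have h3 := norm_sub_le (f p.1 - f p.2) (f p.1 - f p.2 - L (p.1 - p.2))
    simp only [sub_sub_cancel] at h3
    linarith
  have h4 := h1.trans (mul_le_mul_of_nonneg_left h2 hC0.le)
  rw [mul_add, ← mul_assoc, show C * (1 / (2 * C)) = 1 / 2 by field_simp] at h4
  linarith

/-- The local inverse data of a sheet over the closed ball of radius `ρ`. -/
structure Branch (δ : ℝ) where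
  ρ : ℝ
  T : R3 → R3
  S : R3 → R3
  KT : ℝ
  KS : ℝ
  ρ_pos : 0 < ρ
  ρ_lt : ρ < δ
  contT : ContinuousOn T (closedBall 0 ρ)
  contS : ContinuousOn S (closedBall 0 ρ)
  antiT : ∀ a ∈ closedBall 0 ρ, ∀ b ∈ closedBall 0 ρ, ‖a - b‖ ≤ KT * ‖T a - T b‖
  antiS : ∀ a ∈ closedBall 0 ρ, ∀ b ∈ closedBall 0 ρ, ‖a - b‖ ≤ KS * ‖S a - S b‖
  nearT : ∀ a ∈ closedBall 0 ρ, dist (T a) e0 < δ
  nearS : ∀ a ∈ closedBall 0 ρ, dist (S a) (-e0) < δ
  critical : ∀ a ∈ closedBall 0 ρ, gx (a, T a, S a) = 0 ∧ gz (a, T a, S a) = 0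
  bval : ∀ a ∈ closedBall 0 ρ, 0 ≤ Phi (a, T a, S a) ∧ Phi (a, T a, S a) ≤ 26 / 100

theorem Phi_ctr : Phi ctr = 1 / 4 := by
  simp [Phi, ctr, afun, gfun, phi_neg]
  rw [show e0 + e0 = (2 : ℝ) • e0 by module]
  simp [phi, norm_smul, norm_e0]
  norm_num

theorem exists_branch {δ : ℝ} (hδ : 0 < δ) : Nonempty (Branch δ) := by
  let L : P3 ≃L[ℝ] P3 :=
    (LinearEquiv.ofInjectiveEndo critD.toLinearMap critD_injective).toContinuousLinearEquiv
  have hL : HasStrictFDerivAt crit (L : P3 →L[ℝ] P3) ctr :=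
    hasStrictFDerivAt_crit.congr_fderiv (ContinuousLinearMap.ext fun _ => rfl)
  set inv := hL.localInverse crit L ctr
  let emb : R3 →L[ℝ] P3 := ContinuousLinearMap.inl ℝ R3 (R3 × R3)
  let g : R3 → P3 := fun x => inv (emb x)
  have hinv0 : inv 0 = ctr := by
    have := hL.localInverse_apply_image
    rwa [crit_ctr] at this
  have hinv : HasStrictFDerivAt inv (L.symm : P3 →L[ℝ] P3) (emb 0) := by
    have := hL.to_localInverse
    rw [crit_ctr] at this
    rwa [map_zero]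
  have hg : HasStrictFDerivAt g ((L.symm : P3 →L[ℝ] P3).comp emb) 0 :=
    hinv.comp 0 emb.hasStrictFDerivAt
  have hg0 : g 0 = ctr := by simp [g, hinv0]
  have hT : HasStrictFDerivAt (fun x => (g x).2.1) _ 0 :=
    ((ContinuousLinearMap.fst ℝ R3 R3).comp
      (ContinuousLinearMap.snd ℝ R3 (R3 × R3))).hasStrictFDerivAt.comp 0 hg
  have hS : HasStrictFDerivAt (fun x => (g x).2.2) _ 0 :=
    ((ContinuousLinearMap.snd ℝ R3 R3).comp
      (ContinuousLinearMap.snd ℝ R3 (R3 × R3))).hasStrictFDerivAt.comp 0 hg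
  have key : ∀ h : R3, critD (L.symm (h, 0, 0)) = (h, 0, 0) := fun h => L.apply_symm_apply _
  have fstkey : ∀ h : R3, (L.symm (h, 0, 0)).1 = h := fun h => by
    have := key h
    rw [critD_apply] at this
    exact congrArg Prod.fst this
  obtain ⟨KT, hKT⟩ := exists_antilip hT (fun h h0 => by
    have h0' : (L.symm (h, 0, 0)).2.1 = 0 := h0
    have he : L.symm (h, 0, 0) = (h, 0, (L.symm (h, 0, 0)).2.2) :=
      Prod.ext (fstkey h) (Prod.ext h0' rfl)
    exact critD_snd_inj (he ▸ key h))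
  obtain ⟨KS, hKS⟩ := exists_antilip hS (fun h h0 => by
    have h0' : (L.symm (h, 0, 0)).2.2 = 0 := h0
    have he : L.symm (h, 0, 0) = (h, (L.symm (h, 0, 0)).2.1, 0) :=
      Prod.ext (fstkey h) (Prod.ext rfl h0')
    exact critD_trd_inj (he ▸ key h))
  obtain ⟨_, UT, hUT, hLT⟩ := hT.exists_lipschitzOnWith
  obtain ⟨_, US, hUS, hLS⟩ := hS.exists_lipschitzOnWith
  have hgc : ContinuousAt g 0 := hg.continuousAt
  have t1 : Tendsto g (𝓝 0) (𝓝 ctr) := hg0 ▸ hgc.tendsto
  have hright : ∀ᶠ x in 𝓝 (0 : R3), crit (g x) = (x, 0, 0) := by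
    have h := hL.eventually_right_inverse
    rw [crit_ctr] at h
    have := emb.continuous.continuousAt (x := (0 : R3))
    have h' := this.eventually (by rwa [map_zero])
    exact h'
  have hTn : ∀ᶠ x in 𝓝 (0 : R3), dist (g x).2.1 e0 < δ := by
    have : Tendsto (fun x => (g x).2.1) (𝓝 0) (𝓝 e0) :=
      ((continuous_fst.comp continuous_snd).tendsto ctr).comp t1
    exact Metric.tendsto_nhds.1 this δ hδ
  have hSn : ∀ᶠ x in 𝓝 (0 : R3), dist (g x).2.2 (-e0) < δ := by
    have : Tendsto (fun x => (g x).2.2) (𝓝 0) (𝓝 (-e0)) :=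
      ((continuous_snd.comp continuous_snd).tendsto ctr).comp t1
    exact Metric.tendsto_nhds.1 this δ hδ
  have hPc : ContinuousAt Phi ctr := by
    have c1 : ContinuousAt (fun p : P3 => phi (p.1 - p.2.1)) ctr := by
      unfold phi
      exact ContinuousAt.inv₀ (by fun_prop) (by simp [ctr, norm_e0])
    have c2 : ContinuousAt (fun p : P3 => phi (p.1 - p.2.2)) ctr := by
      unfold phi
      exact ContinuousAt.inv₀ (by fun_prop) (by simp [ctr, norm_e0])
    have c3 : ContinuousAt (fun p : P3 => phi (p.2.1 - p.2.2)) ctr := by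
      unfold phi
      refine ContinuousAt.inv₀ (by fun_prop) ?_
      rw [show ctr.2.1 - ctr.2.2 = (2 : ℝ) • e0 by simp [ctr]; module, norm_smul, norm_e0]
      norm_num
    have c4 : Continuous (fun p : P3 => afun p.1) := by unfold afun; fun_prop
    have c5 : Continuous (fun p : P3 => gfun p.2.2) := by unfold gfun; fun_prop
    exact (((c1.add c2).add c3).sub c4.continuousAt).sub c5.continuousAt
  have hPn : ∀ᶠ x in 𝓝 (0 : R3), 0 ≤ Phi (g x) ∧ Phi (g x) ≤ 26 / 100 := by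
    have := hPc.tendsto.comp t1
    rw [Phi_ctr] at this
    filter_upwards [this.eventually_const_le (show (0 : ℝ) < 1 / 4 by norm_num),
      this.eventually_le_const (show (1 / 4 : ℝ) < 26 / 100 by norm_num)] with x a b
    exact ⟨a, b⟩
  obtain ⟨r1, hr1, H1⟩ := Metric.eventually_nhds_iff.1
    (hright.and (hTn.and (hSn.and (hPn.and (Filter.eventually_of_mem hUT (fun x hx => hx)
      |>.and (Filter.eventually_of_mem hUS (fun x hx => hx)))))))
  obtain ⟨r2, hr2, H2⟩ := Metric.eventually_nhds_iff.1 (hKT.and hKS)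
  set ρ := min (min r1 r2) δ / 2 with hρ
  have hρ0 : 0 < ρ := by positivity
  have m1 : min (min r1 r2) δ ≤ r1 := (min_le_left _ _).trans (min_le_left _ _)
  have m2 : min (min r1 r2) δ ≤ r2 := (min_le_left _ _).trans (min_le_right _ _)
  have m3 : min (min r1 r2) δ ≤ δ := min_le_right _ _
  have hA1 : ∀ a ∈ closedBall (0 : R3) ρ, dist a 0 < r1 := fun a ha => by
    have := mem_closedBall.1 ha
    linarith
  have hA2 : ∀ a ∈ closedBall (0 : R3) ρ, dist a 0 < r2 := fun a ha => by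
    have := mem_closedBall.1 ha
    linarith
  have heq : ∀ a ∈ closedBall (0 : R3) ρ, crit (g a) = (a, 0, 0) ∧
      g a = (a, (g a).2.1, (g a).2.2) := fun a ha => by
    have h := (H1 (hA1 a ha)).1
    have h1 : (g a).1 = a := congrArg Prod.fst h
    exact ⟨h, Prod.ext h1 rfl⟩
  refine ⟨⟨ρ, fun x => (g x).2.1, fun x => (g x).2.2, KT, KS, hρ0, by linarith, ?_, ?_, ?_, ?_,
    fun a ha => (H1 (hA1 a ha)).2.1, fun a ha => (H1 (hA1 a ha)).2.2.1, ?_, ?_⟩⟩
  · exact hLT.continuousOn.mono fun a ha => (H1 (hA1 a ha)).2.2.2.2.1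
  · exact hLS.continuousOn.mono fun a ha => (H1 (hA1 a ha)).2.2.2.2.2
  · intro a ha b hb
    exact (H2 (y := (a, b)) (max_lt (hA2 a ha) (hA2 b hb))).1
  · intro a ha b hb
    exact (H2 (y := (a, b)) (max_lt (hA2 a ha) (hA2 b hb))).2
  · intro a ha
    obtain ⟨h, he⟩ := heq a ha
    rw [← he]
    exact ⟨congrArg (fun p : P3 => p.2.1) h, congrArg (fun p : P3 => p.2.2) h⟩
  · intro a ha
    rw [← (heq a ha).2]
    exact (H1 (hA1 a ha)).2.2.2.1

theorem map_null_of_antilip {A : Set R3} {f : R3 → R3} (hfm : Measurable f) {K : ℝ}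
    (h : ∀ a ∈ A, ∀ b ∈ A, ‖a - b‖ ≤ K * ‖f a - f b‖) :
    (volume.restrict A).map f ≪ volume := by
  refine Measure.AbsolutelyContinuous.mk fun s hs h0 => ?_
  rw [Measure.map_apply hfm hs, Measure.restrict_apply (hfm hs)]
  have hinj : InjOn f A := fun a ha b hb he => by
    have := h a ha b hb
    simp only [he, sub_self, norm_zero, mul_zero, norm_le_zero_iff, sub_eq_zero] at this
    exact this
  set g := Function.invFunOn f A
  have hlip : LipschitzOnWith K.toNNReal g (f '' A) := by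
    refine LipschitzOnWith.of_dist_le_mul ?_
    rintro _ ⟨a, ha, rfl⟩ _ ⟨b, hb, rfl⟩
    rw [show g (f a) = a from hinj.leftInvOn_invFunOn ha,
      show g (f b) = b from hinj.leftInvOn_invFunOn hb, dist_eq_norm, dist_eq_norm]
    exact (h a ha b hb).trans (mul_le_mul_of_nonneg_right (Real.le_coe_toNNReal K) (norm_nonneg _))
  have hsub : f ⁻¹' s ∩ A ⊆ g '' (s ∩ f '' A) := fun a ha =>
    ⟨f a, ⟨ha.1, mem_image_of_mem f ha.2⟩, hinj.leftInvOn_invFunOn ha.2⟩
  have hd : Module.finrank ℝ R3 = 3 := by simp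
  let ν : Measure R3 := Measure.hausdorffMeasure (Module.finrank ℝ R3 : ℝ)
  have h1 : (volume : Measure R3) ≪ ν := Measure.absolutelyContinuous_isAddHaarMeasure _ _
  have h2 : ν ≪ (volume : Measure R3) := Measure.absolutelyContinuous_isAddHaarMeasure _ _
  apply h1
  refine measure_mono_null hsub (le_antisymm ?_ bot_le)
  refine ((hlip.mono inter_subset_right).hausdorffMeasure_image_le (Nat.cast_nonneg _)).trans ?_
  have : ν (s ∩ f '' A) = 0 := measure_mono_null inter_subset_left (h2 h0)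
  show _ * ν (s ∩ f '' A) ≤ 0
  simp [this]

end Vale.Agent.P121
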