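import Vale.Agent.P121.Abstract
import Vale.Agent.P121.Local

/-! Gluing the two rotated sheets into the abstract construction. -/

namespace Vale.Agent.P121

open Set MeasureTheory Metric
open scoped ENNReal RealInnerProductSpace

/-- Rotation by a right angle about the third axis. -/
noncomputable def rot : R3 ≃ₗᵢ[ℝ] R3 where
  toFun x := !₂[-x 1, x 0, x 2]
  invFun x := !₂[x 1, -x 0, x 2]
  map_add' x y := by
    ext i
    fin_cases i <;> simp <;> ring
  map_smul' c x := by
    ext i
    fin_cases i <;> simp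
  left_inv x := by
    ext i
    fin_cases i <;> simp
  right_inv x := by
    ext i
    fin_cases i <;> simp
  norm_map' x := by
    simp [EuclideanSpace.norm_eq, Fin.sum_univ_three]
    ring_nf

theorem rot_e0_apply : rot e0 = !₂[0, 1, 0] := by
  ext i
  show (!₂[-e0 1, e0 0, e0 2] : R3) i = _
  fin_cases i <;> simp [e0]

theorem rot_symm_mem {ρ : ℝ} {x : R3} (hx : x ∈ closedBall (0 : R3) ρ) :
    rot.symm x ∈ closedBall (0 : R3) ρ := by
  simpa using hx

/-- The five cluster centres. -/
noncomputable def centre : Fin 5 → R3 := ![0, e0, -e0, rot e0, -rot e0]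

/-- Upper bounds, in units of `1/1000`, for distances between the clusters. -/
def dTab (l m : Fin 5) : ℕ :=
  if l = m then 10 else if l = 0 ∨ m = 0 then 1010
  else if (l = 1 ∧ m = 2) ∨ (l = 2 ∧ m = 1) ∨ (l = 3 ∧ m = 4) ∨ (l = 4 ∧ m = 3) then 2010
  else 1425

/-- Lower bounds, in units of `1/10000`, for inverse distances between the clusters. -/
def wTab (l m : Fin 5) : ℕ :=
  if l = m then 1000000 else if l = 0 ∨ m = 0 then 9900
  else if (l = 1 ∧ m = 2) ∨ (l = 2 ∧ m = 1) ∨ (l = 3 ∧ m = 4) ∨ (l = 4 ∧ m = 3) then 4950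
  else 7000

/-- Upper bounds, in units of `1/10000`, for the potential on the clusters. -/
def uTab (l : Fin 5) : ℕ := if l = 0 then 20100 else 2600

theorem tab_mul (l m : Fin 5) : wTab l m * dTab l m ≤ 10000000 := by
  revert l m; decide

theorem tab_pos (l m : Fin 5) : 0 < dTab l m := by
  revert l m; decide

/-- The label triples of the two sheets, in all orders. -/
def sheetLabels : List (Fin 5 × Fin 5 × Fin 5) :=
  [(0, 1, 2), (0, 2, 1), (1, 0, 2), (1, 2, 0), (2, 0, 1), (2, 1, 0),
   (0, 3, 4), (0, 4, 3), (3, 0, 4), (3, 4, 0), (4, 0, 3), (4, 3, 0)]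

theorem tab_strict : ∀ l m n : Fin 5, (l, m, n) ∈ sheetLabels ∨
    uTab l + uTab m + uTab n < wTab l m + wTab l n + wTab m n := by
  decide

theorem centre_eq : centre =
    ![!₂[0, 0, 0], !₂[1, 0, 0], !₂[-1, 0, 0], !₂[0, 1, 0], !₂[0, -1, 0]] := by
  have h0 : (0 : R3) = !₂[0, 0, 0] := by ext i; fin_cases i <;> rfl
  have h1 : e0 = !₂[1, 0, 0] := by ext i; fin_cases i <;> simp [e0]
  have h2 : -e0 = !₂[-1, 0, 0] := by rw [h1]; ext i; fin_cases i <;> simp
  have h4 : -rot e0 = !₂[0, -1, 0] := by rw [rot_e0_apply]; ext i; fin_cases i <;> simp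
  rw [centre, h4, h2, rot_e0_apply, h1, h0]

theorem dist_centre_le (l m : Fin 5) :
    dist (centre l) (centre m) ≤ ((dTab l m : ℝ) - 10) / 1000 := by
  fin_cases l <;> fin_cases m <;>
    simp [centre_eq, dTab, dist_eq_norm, EuclideanSpace.norm_eq,
      Fin.sum_univ_three] <;>
    norm_num <;> (try rw [Real.sqrt_le_iff]) <;> norm_num

theorem one_le_dist_centre (l m : Fin 5) (h : l ≠ m) : 1 ≤ dist (centre l) (centre m) := by
  fin_cases l <;> fin_cases m <;>
    first
    | exact absurd rfl h
    | (simp [centre_eq, dist_eq_norm, EuclideanSpace.norm_eq,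
        Fin.sum_univ_three] <;>
      norm_num <;> (try rw [Real.le_sqrt']) <;> norm_num)

theorem inv_edist_ge {x y : R3} {l m : Fin 5} {δ : ℝ} (hδ : δ ≤ 1 / 200)
    (hx : dist x (centre l) ≤ δ) (hy : dist y (centre m) ≤ δ) :
    ENNReal.ofReal ((wTab l m : ℝ) / 10000) ≤ (edist x y)⁻¹ := by
  have hd : dist x y ≤ (dTab l m : ℝ) / 1000 := by
    have := dist_triangle4 x (centre l) (centre m) y
    have := dist_centre_le l m
    rw [dist_comm (centre m) y] at *
    linarith
  have hD : (0 : ℝ) < (dTab l m : ℝ) / 1000 := by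
    have := tab_pos l m
    positivity
  rw [edist_dist]
  calc ENNReal.ofReal ((wTab l m : ℝ) / 10000)
      ≤ ENNReal.ofReal ((dTab l m : ℝ) / 1000)⁻¹ := by
        refine ENNReal.ofReal_le_ofReal ?_
        have h := tab_mul l m
        have h' : (wTab l m : ℝ) * (dTab l m : ℝ) ≤ 10000000 := by exact_mod_cast h
        rw [inv_div, div_le_div_iff₀ (by norm_num) (by exact_mod_cast tab_pos l m)]
        linarith
    _ = (ENNReal.ofReal ((dTab l m : ℝ) / 1000))⁻¹ := ENNReal.ofReal_inv_of_pos hD
    _ ≤ _ := ENNReal.inv_le_inv.2 (ENNReal.ofReal_le_ofReal hd)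

theorem coulomb_eq_ofReal {x y z : R3} (h1 : x ≠ y) (h2 : x ≠ z) (h3 : y ≠ z) :
    coulomb x y z = ENNReal.ofReal (phi (x - y) + phi (x - z) + phi (y - z)) := by
  have key : ∀ a b : R3, a ≠ b → (edist a b)⁻¹ = ENNReal.ofReal (phi (a - b)) := fun a b h => by
    rw [edist_dist, ← ENNReal.ofReal_inv_of_pos (dist_pos.2 h), dist_eq_norm, phi]
  have nn : ∀ v : R3, 0 ≤ phi v := fun v => inv_nonneg.2 (norm_nonneg v)
  rw [coulomb, key _ _ h1, key _ _ h2, key _ _ h3, ← ENNReal.ofReal_add (nn _) (nn _),
    ← ENNReal.ofReal_add (add_nonneg (nn _) (nn _)) (nn _)]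

theorem coulomb_rot (x y z : R3) : coulomb (rot x) (rot y) (rot z) = coulomb x y z := by
  simp [coulomb, rot.isometry.edist_eq]

section

variable {δ : ℝ} (D : Branch δ)

/-- The common first component of the two sheets. -/
def setA : Set R3 := closedBall 0 D.ρ

open Classical in
/-- The second map of the first sheet, made measurable. -/
noncomputable def mapT : R3 → R3 := (setA D).piecewise D.T fun _ => e0

open Classical in
/-- The third map of the first sheet, made measurable. -/
noncomputable def mapS : R3 → R3 := (setA D).piecewise D.S fun _ => -e0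

/-- The second maps of the two sheets. -/
noncomputable def sheetT : Bool → R3 → R3
  | false => mapT D
  | true => fun x => rot (mapT D (rot.symm x))

/-- The third maps of the two sheets. -/
noncomputable def sheetS : Bool → R3 → R3
  | false => mapS D
  | true => fun x => rot (mapS D (rot.symm x))

/-- The five clusters. -/
noncomputable def cluster : Fin 5 → Set R3 :=
  ![setA D, sheetT D false '' setA D, sheetS D false '' setA D,
    sheetT D true '' setA D, sheetS D true '' setA D]

theorem mapT_of_mem {a : R3} (ha : a ∈ setA D) : mapT D a = D.T a := by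
  classical
  exact piecewise_eq_of_mem _ _ _ ha

theorem mapS_of_mem {a : R3} (ha : a ∈ setA D) : mapS D a = D.S a := by
  classical
  exact piecewise_eq_of_mem _ _ _ ha

theorem measurable_mapT : Measurable (mapT D) := by
  classical
  exact D.contT.measurable_piecewise continuousOn_const measurableSet_closedBall

theorem measurable_mapS : Measurable (mapS D) := by
  classical
  exact D.contS.measurable_piecewise continuousOn_const measurableSet_closedBall

theorem measurable_sheetT (i : Bool) : Measurable (sheetT D i) := by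
  cases i
  · exact measurable_mapT D
  · exact rot.continuous.measurable.comp ((measurable_mapT D).comp rot.symm.continuous.measurable)

theorem measurable_sheetS (i : Bool) : Measurable (sheetS D i) := by
  cases i
  · exact measurable_mapS D
  · exact rot.continuous.measurable.comp ((measurable_mapS D).comp rot.symm.continuous.measurable)

theorem contOn_sheetT (i : Bool) : ContinuousOn (sheetT D i) (setA D) := by
  have h : ContinuousOn (mapT D) (setA D) := D.contT.congr fun a ha => mapT_of_mem D ha
  cases i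
  · exact h
  · exact rot.continuous.comp_continuousOn
      (h.comp rot.symm.continuous.continuousOn fun a ha => rot_symm_mem ha)

theorem contOn_sheetS (i : Bool) : ContinuousOn (sheetS D i) (setA D) := by
  have h : ContinuousOn (mapS D) (setA D) := D.contS.congr fun a ha => mapS_of_mem D ha
  cases i
  · exact h
  · exact rot.continuous.comp_continuousOn
      (h.comp rot.symm.continuous.continuousOn fun a ha => rot_symm_mem ha)

theorem antilip_sheetT (i : Bool) : ∀ a ∈ setA D, ∀ b ∈ setA D,
    ‖a - b‖ ≤ D.KT * ‖sheetT D i a - sheetT D i b‖ := by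
  intro a ha b hb
  cases i
  · simp only [sheetT, mapT_of_mem D ha, mapT_of_mem D hb]
    exact D.antiT a ha b hb
  · have ha' : rot.symm a ∈ setA D := rot_symm_mem ha
    have hb' : rot.symm b ∈ setA D := rot_symm_mem hb
    have := D.antiT _ ha' _ hb'
    simp only [sheetT, mapT_of_mem D ha', mapT_of_mem D hb', ← map_sub, LinearIsometryEquiv.norm_map]
      at this ⊢
    exact this

theorem antilip_sheetS (i : Bool) : ∀ a ∈ setA D, ∀ b ∈ setA D,
    ‖a - b‖ ≤ D.KS * ‖sheetS D i a - sheetS D i b‖ := by
  intro a ha b hb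
  cases i
  · simp only [sheetS, mapS_of_mem D ha, mapS_of_mem D hb]
    exact D.antiS a ha b hb
  · have ha' : rot.symm a ∈ setA D := rot_symm_mem ha
    have hb' : rot.symm b ∈ setA D := rot_symm_mem hb
    have := D.antiS _ ha' _ hb'
    simp only [sheetS, mapS_of_mem D ha', mapS_of_mem D hb', ← map_sub, LinearIsometryEquiv.norm_map]
      at this ⊢
    exact this

theorem injOn_sheetT (i : Bool) : InjOn (sheetT D i) (setA D) := fun a ha b hb he => by
  have := antilip_sheetT D i a ha b hb
  simp only [he, sub_self, norm_zero, mul_zero, norm_le_zero_iff, sub_eq_zero] at this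
  exact this

theorem injOn_sheetS (i : Bool) : InjOn (sheetS D i) (setA D) := fun a ha b hb he => by
  have := antilip_sheetS D i a ha b hb
  simp only [he, sub_self, norm_zero, mul_zero, norm_le_zero_iff, sub_eq_zero] at this
  exact this

theorem dist_le_of_mem {l : Fin 5} {x : R3} (hx : x ∈ cluster D l) :
    dist x (centre l) ≤ δ := by
  fin_cases l
  · exact le_trans (mem_closedBall.1 hx) D.ρ_lt.le
  · obtain ⟨a, ha, rfl⟩ := hx
    simpa [centre, sheetT, mapT_of_mem D ha] using (D.nearT a ha).le
  · obtain ⟨a, ha, rfl⟩ := hx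
    simpa [centre, sheetS, mapS_of_mem D ha] using (D.nearS a ha).le
  · obtain ⟨a, ha, rfl⟩ := hx
    simpa [centre, sheetT, mapT_of_mem D (rot_symm_mem ha), rot.isometry.dist_eq]
      using (D.nearT _ (rot_symm_mem ha)).le
  · obtain ⟨a, ha, rfl⟩ := hx
    have h : -rot e0 = rot (-e0) := (map_neg rot e0).symm
    simpa [centre, sheetS, mapS_of_mem D (rot_symm_mem ha), h, rot.isometry.dist_eq,
      -map_neg] using (D.nearS _ (rot_symm_mem ha)).le

theorem cluster_disjoint (hδ : δ ≤ 1 / 200) {l m : Fin 5} {x : R3} (hl : x ∈ cluster D l)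
    (hm : x ∈ cluster D m) : l = m := by
  by_contra h
  have := dist_triangle_left (centre l) (centre m) x
  linarith [one_le_dist_centre l m h, dist_le_of_mem D hl, dist_le_of_mem D hm]

theorem exists_cluster {x : R3}
    (hx : x ∈ setA D ∪ (⋃ i, sheetT D i '' setA D ∪ sheetS D i '' setA D)) :
    ∃ l, x ∈ cluster D l := by
  rcases hx with hx | hx
  · exact ⟨0, hx⟩
  · obtain ⟨i, hi⟩ := mem_iUnion.1 hx
    rcases hi with hi | hi <;> cases i
    · exact ⟨1, hi⟩
    · exact ⟨3, hi⟩
    · exact ⟨2, hi⟩
    · exact ⟨4, hi⟩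

open Classical in
/-- The inverse of the first sheet's second map. -/
noncomputable def invT : R3 → R3 :=
  (mapT D '' setA D).piecewise (Function.invFunOn (mapT D) (setA D)) fun _ => 0

/-- The potential on the second cluster. -/
noncomputable def bfun (y : R3) : ℝ := Phi (invT D y, y, mapS D (invT D y))

open Classical in
/-- The dual potential. -/
noncomputable def pot : R3 → ℝ :=
  (cluster D 0).piecewise afun ((cluster D 1).piecewise (bfun D)
    ((cluster D 2).piecewise gfun ((cluster D 3).piecewise (fun x => bfun D (rot.symm x))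
      fun x => gfun (rot.symm x))))

theorem bfun_apply {a : R3} (ha : a ∈ setA D) :
    bfun D (mapT D a) = Phi (a, D.T a, D.S a) := by
  classical
  have h : invT D (mapT D a) = a := by
    rw [invT, piecewise_eq_of_mem _ _ _ (mem_image_of_mem _ ha)]
    exact (injOn_sheetT D false).leftInvOn_invFunOn ha
  rw [bfun, h, mapT_of_mem D ha, mapS_of_mem D ha]

theorem compact_setA : IsCompact (setA D) := isCompact_closedBall _ _

theorem measurableSet_cluster (l : Fin 5) : MeasurableSet (cluster D l) := by
  fin_cases l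
  · exact measurableSet_closedBall
  · exact ((compact_setA D).image_of_continuousOn (contOn_sheetT D false)).measurableSet
  · exact ((compact_setA D).image_of_continuousOn (contOn_sheetS D false)).measurableSet
  · exact ((compact_setA D).image_of_continuousOn (contOn_sheetT D true)).measurableSet
  · exact ((compact_setA D).image_of_continuousOn (contOn_sheetS D true)).measurableSet

theorem measurable_pot : Measurable (pot D) := by
  classical
  have hinv : ContinuousOn (Function.invFunOn (mapT D) (setA D)) (mapT D '' setA D) := by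
    refine (LipschitzOnWith.of_dist_le_mul (K := D.KT.toNNReal) ?_).continuousOn
    rintro _ ⟨a, ha, rfl⟩ _ ⟨b, hb, rfl⟩
    have hi : InjOn (mapT D) (setA D) := injOn_sheetT D false
    rw [hi.leftInvOn_invFunOn ha, hi.leftInvOn_invFunOn hb, dist_eq_norm, dist_eq_norm]
    exact (antilip_sheetT D false a ha b hb).trans
      (mul_le_mul_of_nonneg_right (Real.le_coe_toNNReal _) (norm_nonneg _))
  have hinvm : Measurable (invT D) :=
    hinv.measurable_piecewise continuousOn_const (measurableSet_cluster D 1)
  have hS := measurable_mapS D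
  have hPhi : Measurable Phi := by
    unfold Phi phi afun gfun
    fun_prop
  have hb : Measurable (bfun D) := hPhi.comp (hinvm.prodMk (measurable_id.prodMk (hS.comp hinvm)))
  have hg : Measurable gfun := by unfold gfun; fun_prop
  have ha : Measurable afun := by unfold afun; fun_prop
  exact ha.piecewise (measurableSet_cluster D 0) (hb.piecewise (measurableSet_cluster D 1)
    (hg.piecewise (measurableSet_cluster D 2) ((hb.comp rot.symm.continuous.measurable).piecewise
      (measurableSet_cluster D 3) (hg.comp rot.symm.continuous.measurable))))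

variable (hδ : δ ≤ 1 / 200)
include hδ

theorem pot_zero {x : R3} (hx : x ∈ setA D) : pot D x = afun x := by
  classical
  exact piecewise_eq_of_mem _ _ _ (show x ∈ cluster D 0 from hx)

theorem pot_T (i : Bool) {a : R3} (ha : a ∈ setA D) :
    pot D (sheetT D i a) = bfun D (mapT D (if i then rot.symm a else a)) := by
  classical
  have nn : ∀ {l m : Fin 5} {x : R3}, x ∈ cluster D l → l ≠ m → x ∉ cluster D m :=
    fun h1 hne h2 => hne (cluster_disjoint D hδ h1 h2)
  cases i
  · have hm : sheetT D false a ∈ cluster D 1 := mem_image_of_mem _ ha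
    rw [pot, piecewise_eq_of_notMem _ _ _ (nn hm (by decide)), piecewise_eq_of_mem _ _ _ hm]
    simp [sheetT]
  · have hm : sheetT D true a ∈ cluster D 3 := mem_image_of_mem _ ha
    rw [pot, piecewise_eq_of_notMem _ _ _ (nn hm (by decide)),
      piecewise_eq_of_notMem _ _ _ (nn hm (by decide)),
      piecewise_eq_of_notMem _ _ _ (nn hm (by decide)), piecewise_eq_of_mem _ _ _ hm]
    simp [sheetT]

theorem pot_S (i : Bool) {a : R3} (ha : a ∈ setA D) :
    pot D (sheetS D i a) = gfun (mapS D (if i then rot.symm a else a)) := by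
  classical
  have nn : ∀ {l m : Fin 5} {x : R3}, x ∈ cluster D l → l ≠ m → x ∉ cluster D m :=
    fun h1 hne h2 => hne (cluster_disjoint D hδ h1 h2)
  cases i
  · have hm : sheetS D false a ∈ cluster D 2 := mem_image_of_mem _ ha
    rw [pot, piecewise_eq_of_notMem _ _ _ (nn hm (by decide)),
      piecewise_eq_of_notMem _ _ _ (nn hm (by decide)), piecewise_eq_of_mem _ _ _ hm]
    simp [sheetS]
  · have hm : sheetS D true a ∈ cluster D 4 := mem_image_of_mem _ ha
    rw [pot, piecewise_eq_of_notMem _ _ _ (nn hm (by decide)),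
      piecewise_eq_of_notMem _ _ _ (nn hm (by decide)),
      piecewise_eq_of_notMem _ _ _ (nn hm (by decide)),
      piecewise_eq_of_notMem _ _ _ (nn hm (by decide))]
    simp [sheetS]

theorem pot_bounds {l : Fin 5} {x : R3} (hx : x ∈ cluster D l) :
    0 ≤ pot D x ∧ pot D x ≤ (uTab l : ℝ) / 10000 := by
  have hg : ∀ z, dist z (-e0) ≤ δ → 0 ≤ gfun z ∧ gfun z ≤ 2600 / 10000 := by
    intro z hz
    rw [dist_eq_norm, sub_neg_eq_add] at hz
    have h1 : |⟪z + e0, e0⟫| ≤ 1 / 200 := by
      have := abs_real_inner_le_norm (z + e0) e0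
      rw [norm_e0, mul_one] at this
      linarith
    have h2 : ‖z + e0‖ ^ 2 ≤ (1 / 200) ^ 2 :=
      pow_le_pow_left₀ (norm_nonneg _) (hz.trans hδ) 2
    obtain ⟨h3, h4⟩ := abs_le.1 h1
    unfold gfun
    constructor <;> nlinarith [sq_nonneg ‖z + e0‖]
  have hb : ∀ a ∈ setA D, 0 ≤ bfun D (mapT D a) ∧ bfun D (mapT D a) ≤ 2600 / 10000 := by
    intro a ha
    rw [bfun_apply D ha]
    exact ⟨(D.bval a ha).1, (D.bval a ha).2.trans (by norm_num)⟩
  have hgS : ∀ a ∈ setA D, 0 ≤ gfun (mapS D a) ∧ gfun (mapS D a) ≤ 2600 / 10000 := fun a ha =>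
    hg _ (by rw [mapS_of_mem D ha]; exact (D.nearS a ha).le)
  fin_cases l
  · have hx' : x ∈ setA D := hx
    have h2 : ‖x‖ ^ 2 ≤ (1 / 200) ^ 2 := by
      refine pow_le_pow_left₀ (norm_nonneg _) ?_ 2
      have := mem_closedBall.1 hx'
      rw [dist_zero_right] at this
      linarith [D.ρ_lt]
    rw [pot_zero D hδ hx']
    simp only [uTab, afun]
    constructor <;> norm_num <;> nlinarith [sq_nonneg ‖x‖]
  · obtain ⟨a, ha, rfl⟩ := hx
    rw [pot_T D hδ _ ha]
    simpa [uTab] using hb _ ha
  · obtain ⟨a, ha, rfl⟩ := hx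
    rw [pot_S D hδ _ ha]
    simpa [uTab] using hgS _ ha
  · obtain ⟨a, ha, rfl⟩ := hx
    rw [pot_T D hδ _ ha]
    simpa [uTab] using hb _ (rot_symm_mem ha)
  · obtain ⟨a, ha, rfl⟩ := hx
    rw [pot_S D hδ _ ha]
    simpa [uTab] using hgS _ (rot_symm_mem ha)

/-- The potential with values in `ℝ≥0∞`. -/
noncomputable def upot (x : R3) : ℝ≥0∞ :=
  have := hδ
  ENNReal.ofReal (pot D x)

/-- The certificate at one triple. -/
def CertAt (x y z : R3) : Prop :=
  upot D hδ x + upot D hδ y + upot D hδ z ≤ coulomb x y z ∧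
    (upot D hδ x + upot D hδ y + upot D hδ z = coulomb x y z →
      ∃ i, ∃ a ∈ setA D, IsPerm3 a (sheetT D i a) (sheetS D i a) x y z)

theorem certAt_swap12 {x y z : R3} (h : CertAt D hδ x y z) : CertAt D hδ y x z := by
  obtain ⟨h1, h2⟩ := h
  have e : upot D hδ y + upot D hδ x + upot D hδ z = upot D hδ x + upot D hδ y + upot D hδ z := by
    ring
  refine ⟨by rw [e, coulomb_swap12 x y z]; exact h1, fun he => ?_⟩
  rw [e, coulomb_swap12 x y z] at he
  obtain ⟨i, a, ha, hp⟩ := h2 he
  refine ⟨i, a, ha, ?_⟩
  unfold IsPerm3 at hp ⊢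
  tauto

theorem certAt_swap23 {x y z : R3} (h : CertAt D hδ x y z) : CertAt D hδ x z y := by
  obtain ⟨h1, h2⟩ := h
  have e : upot D hδ x + upot D hδ z + upot D hδ y = upot D hδ x + upot D hδ y + upot D hδ z := by
    ring
  refine ⟨by rw [e, coulomb_swap23 x y z]; exact h1, fun he => ?_⟩
  rw [e, coulomb_swap23 x y z] at he
  obtain ⟨i, a, ha, hp⟩ := h2 he
  refine ⟨i, a, ha, ?_⟩
  unfold IsPerm3 at hp ⊢
  tauto

variable {r : ℝ} (hr : δ ≤ r)
  (hmin : ∀ x y z x' z' : R3, (x, y, z) ∈ ball ctr r → (x', y, z') ∈ ball ctr r →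
    gx (x, y, z) = 0 → gz (x, y, z) = 0 → (x', z') ≠ (x, z) →
      Phi (x, y, z) < Phi (x', y, z'))
include hr hmin

theorem cert_false {a x a' : R3} (ha : a ∈ setA D) (hx : x ∈ setA D) (ha' : a' ∈ setA D) :
    upot D hδ x + upot D hδ (sheetT D false a) + upot D hδ (sheetS D false a')
      ≤ coulomb x (sheetT D false a) (sheetS D false a') ∧
    (upot D hδ x + upot D hδ (sheetT D false a) + upot D hδ (sheetS D false a')
        = coulomb x (sheetT D false a) (sheetS D false a') →
      x = a ∧ sheetS D false a' = sheetS D false a) ∧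
    upot D hδ a + upot D hδ (sheetT D false a) + upot D hδ (sheetS D false a)
      = coulomb a (sheetT D false a) (sheetS D false a) := by
  have mem : ∀ u v w, u ∈ setA D → v ∈ setA D → w ∈ setA D →
      (u, D.T v, D.S w) ∈ ball ctr r := by
    intro u v w hu hv hw
    have h1 := mem_closedBall.1 hu
    have h2 := D.nearT v hv
    have h3 := D.nearS w hw
    rw [mem_ball]
    simp only [Prod.dist_eq, ctr, max_lt_iff]
    exact ⟨by linarith [D.ρ_lt], by linarith, by linarith⟩
  have hc0 : ∀ u v w, u ∈ setA D → v ∈ setA D → w ∈ setA D →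
      coulomb u (sheetT D false v) (sheetS D false w) =
        ENNReal.ofReal (phi (u - D.T v) + phi (u - D.S w) + phi (D.T v - D.S w)) ∧
      upot D hδ u + upot D hδ (sheetT D false v) + upot D hδ (sheetS D false w) =
        ENNReal.ofReal (afun u + Phi (v, D.T v, D.S v) + gfun (D.S w)) := by
    intro u v w hu hv hw
    have m0 : u ∈ cluster D 0 := hu
    have m1 : sheetT D false v ∈ cluster D 1 := mem_image_of_mem _ hv
    have m2 : sheetS D false w ∈ cluster D 2 := mem_image_of_mem _ hw
    have n : ∀ {l m : Fin 5} {p q : R3}, p ∈ cluster D l → q ∈ cluster D m → l ≠ m → p ≠ q :=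
      fun hp hq hne he => hne (cluster_disjoint D hδ hp (he ▸ hq))
    constructor
    · rw [coulomb_eq_ofReal (n m0 m1 (by decide)) (n m0 m2 (by decide)) (n m1 m2 (by decide))]
      simp [sheetT, sheetS, mapT_of_mem D hv, mapS_of_mem D hw]
    · have b0 := (pot_bounds D hδ m0).1
      have b1 := (pot_bounds D hδ m1).1
      have b2 := (pot_bounds D hδ m2).1
      simp only [upot]
      rw [← ENNReal.ofReal_add b0 b1, ← ENNReal.ofReal_add (add_nonneg b0 b1) b2,
        pot_zero D hδ hu, pot_T D hδ false hv, pot_S D hδ false hw]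
      simp [bfun_apply D hv, mapS_of_mem D hw]
  obtain ⟨hgx, hgz⟩ := D.critical a ha
  obtain ⟨ec, eu⟩ := hc0 x a a' hx ha ha'
  have nn : ∀ v : R3, 0 ≤ phi v := fun v => inv_nonneg.2 (norm_nonneg v)
  have key : (x, D.S a') ≠ (a, D.S a) →
      afun x + Phi (a, D.T a, D.S a) + gfun (D.S a') <
        phi (x - D.T a) + phi (x - D.S a') + phi (D.T a - D.S a') := by
    intro hne
    have := hmin a (D.T a) (D.S a) x (D.S a') (mem a a a ha ha ha) (mem x a a' hx ha ha')
      hgx hgz hne
    simp only [Phi] at this ⊢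
    linarith
  refine ⟨?_, ?_, ?_⟩
  · rw [ec, eu]
    refine ENNReal.ofReal_le_ofReal ?_
    by_cases hne : (x, D.S a') = (a, D.S a)
    · obtain ⟨h1, h2⟩ := Prod.ext_iff.1 hne
      simp only at h1 h2
      rw [h1, h2]
      simp only [Phi]
      linarith
    · exact (key hne).le
  · intro he
    by_contra hcon
    have hne : (x, D.S a') ≠ (a, D.S a) := by
      intro h
      obtain ⟨h1, h2⟩ := Prod.ext_iff.1 h
      exact hcon ⟨h1, by simpa [sheetS, mapS_of_mem D ha, mapS_of_mem D ha'] using h2⟩
    rw [ec, eu] at he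
    have hlt := key hne
    have hpos : 0 < phi (x - D.T a) + phi (x - D.S a') + phi (D.T a - D.S a') := by
      have b0 : 0 ≤ afun x := pot_zero D hδ hx ▸ (pot_bounds D hδ (l := 0) hx).1
      have b1 := (D.bval a ha).1
      have b2 : 0 ≤ gfun (D.S a') := by
        have := (pot_bounds D hδ (l := 2) (mem_image_of_mem (sheetS D false) ha')).1
        rw [pot_S D hδ false ha'] at this
        simpa [mapS_of_mem D ha'] using this
      linarith
    exact absurd he ((ENNReal.ofReal_lt_ofReal_iff hpos).2 hlt).ne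
  · obtain ⟨ec', eu'⟩ := hc0 a a a ha ha ha
    rw [ec', eu']
    simp only [Phi]
    congr 1
    ring

theorem sheet_rot {a : R3} (ha : a ∈ setA D) :
    upot D hδ a = upot D hδ (rot.symm a) ∧
    (∀ b ∈ setA D, upot D hδ (sheetT D true b) = upot D hδ (sheetT D false (rot.symm b))) ∧
    (∀ b ∈ setA D, upot D hδ (sheetS D true b) = upot D hδ (sheetS D false (rot.symm b))) := by
  have := hr
  have := hmin
  refine ⟨?_, ?_, ?_⟩
  · simp only [upot]
    rw [pot_zero D hδ ha, pot_zero D hδ (rot_symm_mem ha)]
    simp [afun]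
  · intro b hb
    simp only [upot]
    rw [pot_T D hδ true hb, pot_T D hδ false (rot_symm_mem hb)]
    simp
  · intro b hb
    simp only [upot]
    rw [pot_S D hδ true hb, pot_S D hδ false (rot_symm_mem hb)]
    simp

theorem sheet_eq (i : Bool) {a : R3} (ha : a ∈ setA D) :
    coulomb a (sheetT D i a) (sheetS D i a) =
      upot D hδ a + upot D hδ (sheetT D i a) + upot D hδ (sheetS D i a) := by
  cases i
  · exact (cert_false D hδ hr hmin ha ha ha).2.2.symm
  · have ha' : rot.symm a ∈ setA D := rot_symm_mem ha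
    obtain ⟨e0', e1', e2'⟩ := sheet_rot D hδ hr hmin ha
    rw [e0', e1' a ha, e2' a ha, (cert_false D hδ hr hmin ha' ha' ha').2.2,
      ← coulomb_rot (rot.symm a)]
    simp [sheetT, sheetS]

theorem cert_canon (i : Bool) {x y z : R3} (hx : x ∈ setA D) (hy : y ∈ sheetT D i '' setA D)
    (hz : z ∈ sheetS D i '' setA D) : CertAt D hδ x y z := by
  obtain ⟨a, ha, rfl⟩ := hy
  obtain ⟨a', ha', rfl⟩ := hz
  cases i
  · obtain ⟨h1, h2, -⟩ := cert_false D hδ hr hmin ha hx ha'
    exact ⟨h1, fun he => ⟨false, a, ha, Or.inl ⟨(h2 he).1, rfl, (h2 he).2⟩⟩⟩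
  · obtain ⟨h1, h2, -⟩ :=
      cert_false D hδ hr hmin (rot_symm_mem ha) (rot_symm_mem hx) (rot_symm_mem ha')
    obtain ⟨e0', e1', e2'⟩ := sheet_rot D hδ hr hmin hx
    have ec : coulomb x (sheetT D true a) (sheetS D true a') =
        coulomb (rot.symm x) (sheetT D false (rot.symm a)) (sheetS D false (rot.symm a')) := by
      rw [← coulomb_rot (rot.symm x)]
      simp [sheetT, sheetS]
    refine ⟨?_, fun he => ?_⟩
    · rw [e0', e1' a ha, e2' a' ha', ec]
      exact h1
    · rw [e0', e1' a ha, e2' a' ha', ec] at he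
      obtain ⟨hxa, hS⟩ := h2 he
      refine ⟨true, a, ha, Or.inl ⟨rot.symm.injective hxa, rfl, ?_⟩⟩
      exact congrArg rot hS

theorem certAt_of_cluster {l m n : Fin 5} {x y z : R3} (hx : x ∈ cluster D l)
    (hy : y ∈ cluster D m) (hz : z ∈ cluster D n) : CertAt D hδ x y z := by
  rcases tab_strict l m n with hmem | hlt
  · simp only [sheetLabels, List.mem_cons, List.not_mem_nil, or_false, Prod.mk.injEq] at hmem
    rcases hmem with h | h | h | h | h | h | h | h | h | h | h | h <;>
      obtain ⟨rfl, rfl, rfl⟩ := h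
    · exact cert_canon D hδ hr hmin false hx hy hz
    · exact certAt_swap23 D hδ (cert_canon D hδ hr hmin false hx hz hy)
    · exact certAt_swap12 D hδ (cert_canon D hδ hr hmin false hy hx hz)
    · exact certAt_swap23 D hδ (certAt_swap12 D hδ (cert_canon D hδ hr hmin false hz hx hy))
    · exact certAt_swap12 D hδ (certAt_swap23 D hδ (cert_canon D hδ hr hmin false hy hz hx))
    · exact certAt_swap12 D hδ (certAt_swap23 D hδ (certAt_swap12 D hδ
        (cert_canon D hδ hr hmin false hz hy hx)))
    · exact cert_canon D hδ hr hmin true hx hy hz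
    · exact certAt_swap23 D hδ (cert_canon D hδ hr hmin true hx hz hy)
    · exact certAt_swap12 D hδ (cert_canon D hδ hr hmin true hy hx hz)
    · exact certAt_swap23 D hδ (certAt_swap12 D hδ (cert_canon D hδ hr hmin true hz hx hy))
    · exact certAt_swap12 D hδ (certAt_swap23 D hδ (cert_canon D hδ hr hmin true hy hz hx))
    · exact certAt_swap12 D hδ (certAt_swap23 D hδ (certAt_swap12 D hδ
        (cert_canon D hδ hr hmin true hz hy hx)))
  · obtain ⟨x0, x1⟩ := pot_bounds D hδ hx
    obtain ⟨y0, y1⟩ := pot_bounds D hδ hy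
    obtain ⟨z0, z1⟩ := pot_bounds D hδ hz
    have dx := dist_le_of_mem D hx
    have dy := dist_le_of_mem D hy
    have dz := dist_le_of_mem D hz
    have hlt' : upot D hδ x + upot D hδ y + upot D hδ z < coulomb x y z := by
      have hw : ENNReal.ofReal ((wTab l m : ℝ) / 10000) + ENNReal.ofReal ((wTab l n : ℝ) / 10000)
          + ENNReal.ofReal ((wTab m n : ℝ) / 10000) ≤ coulomb x y z :=
        add_le_add (add_le_add (inv_edist_ge hδ dx dy) (inv_edist_ge hδ dx dz))
          (inv_edist_ge hδ dy dz)
      refine lt_of_lt_of_le ?_ hw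
      simp only [upot]
      rw [← ENNReal.ofReal_add x0 y0, ← ENNReal.ofReal_add (add_nonneg x0 y0) z0,
        ← ENNReal.ofReal_add (by positivity) (by positivity),
        ← ENNReal.ofReal_add (by positivity) (by positivity)]
      have hc : ((uTab l : ℝ) + uTab m + uTab n) < (wTab l m : ℝ) + wTab l n + wTab m n := by
        exact_mod_cast hlt
      refine (ENNReal.ofReal_lt_ofReal_iff ?_).2 ?_
      · linarith
      · linarith
    exact ⟨hlt'.le, fun he => absurd he hlt'.ne⟩

/-- The data of the counterexample. -/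
noncomputable def sheets : Sheets where
  A := setA D
  T := sheetT D
  S := sheetS D
  u := upot D hδ
  bound := ENNReal.ofReal 3
  measA := measurableSet_closedBall
  volA_ne_zero := (measure_closedBall_pos _ _ D.ρ_pos).ne'
  volA_ne_top := measure_closedBall_lt_top.ne
  measT := measurable_sheetT D
  measS := measurable_sheetS D
  contT := contOn_sheetT D
  contS := contOn_sheetS D
  injT := injOn_sheetT D
  injS := injOn_sheetS D
  acT i := map_null_of_antilip (measurable_sheetT D i) (antilip_sheetT D i)
  acS i := map_null_of_antilip (measurable_sheetS D i) (antilip_sheetS D i)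
  T_notA i a ha h := by
    cases i
    · exact absurd (cluster_disjoint D hδ (l := 1) (m := 0) (mem_image_of_mem _ ha) h) (by decide)
    · exact absurd (cluster_disjoint D hδ (l := 3) (m := 0) (mem_image_of_mem _ ha) h) (by decide)
  S_notA i a ha h := by
    cases i
    · exact absurd (cluster_disjoint D hδ (l := 2) (m := 0) (mem_image_of_mem _ ha) h) (by decide)
    · exact absurd (cluster_disjoint D hδ (l := 4) (m := 0) (mem_image_of_mem _ ha) h) (by decide)
  T_ne_T i j a ha b hb h := by
    cases i <;> cases j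
    · rfl
    · exact absurd (cluster_disjoint D hδ (l := 3) (m := 1) (mem_image_of_mem _ hb)
        (h ▸ mem_image_of_mem _ ha)) (by decide)
    · exact absurd (cluster_disjoint D hδ (l := 1) (m := 3) (mem_image_of_mem _ hb)
        (h ▸ mem_image_of_mem _ ha)) (by decide)
    · rfl
  S_ne_S i j a ha b hb h := by
    cases i <;> cases j
    · rfl
    · exact absurd (cluster_disjoint D hδ (l := 4) (m := 2) (mem_image_of_mem _ hb)
        (h ▸ mem_image_of_mem _ ha)) (by decide)
    · exact absurd (cluster_disjoint D hδ (l := 2) (m := 4) (mem_image_of_mem _ hb)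
        (h ▸ mem_image_of_mem _ ha)) (by decide)
    · rfl
  T_ne_S i j a ha b hb h := by
    cases i <;> cases j
    · exact absurd (cluster_disjoint D hδ (l := 2) (m := 1) (mem_image_of_mem _ hb)
        (h ▸ mem_image_of_mem _ ha)) (by decide)
    · exact absurd (cluster_disjoint D hδ (l := 4) (m := 1) (mem_image_of_mem _ hb)
        (h ▸ mem_image_of_mem _ ha)) (by decide)
    · exact absurd (cluster_disjoint D hδ (l := 2) (m := 3) (mem_image_of_mem _ hb)
        (h ▸ mem_image_of_mem _ ha)) (by decide)
    · exact absurd (cluster_disjoint D hδ (l := 4) (m := 3) (mem_image_of_mem _ hb)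
        (h ▸ mem_image_of_mem _ ha)) (by decide)
  measu := (measurable_pot D).ennreal_ofReal
  bound_ne_top := ENNReal.ofReal_ne_top
  sheet_eq i a ha := sheet_eq D hδ hr hmin i ha
  u_le x hx := by
    obtain ⟨l, hl⟩ := exists_cluster D hx
    refine ENNReal.ofReal_le_ofReal ((pot_bounds D hδ hl).2.trans ?_)
    fin_cases l <;> simp [uTab] <;> norm_num
  cert x hx y hy z hz := by
    obtain ⟨l, hl⟩ := exists_cluster D hx
    obtain ⟨m, hm⟩ := exists_cluster D hy
    obtain ⟨n, hn⟩ := exists_cluster D hz
    exact certAt_of_cluster D hδ hr hmin hl hm hn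

end

end Vale.Agent.P121
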