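import Mathlib

/-! Definitions for the three-marginal Coulomb transport problem. -/

namespace Vale.Agent.P121

open MeasureTheory
open scoped ENNReal

/-- Euclidean three-space. -/
abbrev R3 := EuclideanSpace ℝ (Fin 3)

/-- The Coulomb cost `1/|x-y| + 1/|x-z| + 1/|y-z|`, with value `⊤` if two points coincide. -/
noncomputable def coulomb (x y z : R3) : ℝ≥0∞ :=
  (edist x y)⁻¹ + (edist x z)⁻¹ + (edist y z)⁻¹

/-- A plan all of whose three coordinate marginals equal `μ`. -/
def IsCoupling (μ : Measure R3) (π : Measure (R3 × R3 × R3)) : Prop :=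
  π.map (fun p => p.1) = μ ∧ π.map (fun p => p.2.1) = μ ∧ π.map (fun p => p.2.2) = μ

/-- The Kantorovich value. -/
noncomputable def kantorovich (μ : Measure R3) : ℝ≥0∞ :=
  ⨅ (π : Measure (R3 × R3 × R3)) (_ : IsCoupling μ π),
    ∫⁻ p, coulomb p.1 p.2.1 p.2.2 ∂π

end Vale.Agent.P121
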